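import Vale.Agent.Lib.P368.Gen.GMain

/-!
# P368, ancilla preprocessing: definitions

Conventions used in the comments.  The inputs of the circuit sit on the flagged qubits
(`τ p = true`); every other qubit belongs to an arbitrary vector (the state of the ancillas
after a preprocessing stage).  The vector fed into the last two entangling layers is
`Λ_y ψ`, where `Λ_y` is the layer of the one-qubit matrices `ε p (y p)`: at a flagged qubit
`ε p b` maps the basis state `0` to the column `b` of a unitary (and kills `1`), at the other
qubits it is a fixed matrix of norm at most one.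
-/

namespace Vale.Agent.Lib.P368

open Finset

/-- The matrix whose column `false` is the column `b` of `w` and whose column `true` is zero. -/
def colMat (w : Matrix Bool Bool ℂ) (b : Bool) : Matrix Bool Bool ℂ :=
  fun i j => if j = false then w i b else 0

/-- The signed sum over the bit `b` of the matrices `(e b)† X (e b)`, with the input weight
`wt t b`. -/
noncomputable def tMat (t : Bool) (e : Bool → Matrix Bool Bool ℂ) (X : Matrix Bool Bool ℂ) :
    Matrix Bool Bool ℂ :=
  ∑ b : Bool, ((wt t b : ℝ) : ℂ) • ((e b).conjTranspose * X * e b)

section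

variable {Q : Type} [Fintype Q] [DecidableEq Q]

/-- Signed sum, over the basis inputs `y`, of the pairing of `cz_L Λ_y φ` with
`O cz_L Λ_y ψ`, where `Λ_y` is the layer of the matrices `ε p (y p)`, `cz_L` the layer `L` of
multi-controlled `Z` gates and `O` a product of one-qubit matrices. -/
noncomputable def sForm (τ : Q → Bool) (ε : Q → Bool → Matrix Bool Bool ℂ)
    (L : Finset (Finset Q)) (O : Q → Matrix Bool Bool ℂ) (φ ψ : StateVec Q) : ℂ :=
  ∑ y : Q → Bool, ((wprod τ y : ℝ) : ℂ) *
    ip (czLayer L (oneQubitLayer (fun p => ε p (y p)) φ))
      (oneQubitLayer O (czLayer L (oneQubitLayer (fun p => ε p (y p)) ψ)))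

/-- Admissible data: at a flagged qubit the matrices `ε p b` are the columns of a unitary; at
the other qubits `ε p false` has norm at most one. -/
def Adm (τ : Q → Bool) (ε : Q → Bool → Matrix Bool Bool ℂ) : Prop :=
  ∀ p, (τ p = true → ∃ u : Matrix Bool Bool ℂ, u ∈ Matrix.unitaryGroup Bool ℂ ∧
      ∀ b, ε p b = colMat u b) ∧
    (τ p = false → IsContr (ε p false))

/-- The operator of one gate `C` of the layer: the combination, with coefficients `1`, `-2`,
`-2`, `4`, of the four layers of transferred matrices on the qubits of `C`. -/
noncomputable def gOp (τ : Q → Bool) (ε : Q → Bool → Matrix Bool Bool ℂ)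
    (O : Q → Matrix Bool Bool ℂ) (C : Finset Q) (ψ : StateVec Q) : StateVec Q :=
  fun z =>
    oneQubitLayer (fun p => if p ∈ C then tMat (τ p) (ε p) (O p) else 1) ψ z
      - 2 * oneQubitLayer (fun p => if p ∈ C then tMat (τ p) (ε p) (projOne * O p) else 1) ψ z
      - 2 * oneQubitLayer (fun p => if p ∈ C then tMat (τ p) (ε p) (O p * projOne) else 1) ψ z
      + 4 * oneQubitLayer
          (fun p => if p ∈ C then tMat (τ p) (ε p) (projOne * O p * projOne) else 1) ψ z

end

end Vale.Agent.Lib.P368
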