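import Vale.Agent.Lib.P368.Adv.Fubini

/-!
# P368, ancilla preprocessing: the signed form without gates
-/

namespace Vale.Agent.Lib.P368

open Finset

variable {Q : Type} [Fintype Q] [DecidableEq Q]

/-- The pairing is additive in its second argument. -/
theorem em_ip_add (φ a b : StateVec Q) : ip φ (a + b) = ip φ a + ip φ b := by
  unfold ip
  simp only [Pi.add_apply, mul_add, Finset.sum_add_distrib]

/-- The pairing is homogeneous in its second argument. -/
theorem em_ip_smul (φ : StateVec Q) (t : ℂ) (a : StateVec Q) : ip φ (t • a) = t * ip φ a := by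
  unfold ip
  simp only [Pi.smul_apply, smul_eq_mul, Finset.mul_sum]
  refine Finset.sum_congr rfl (fun z _ => ?_)
  ring

/-- The weights of the unflagged family sum to one. -/
theorem em_sum_wprod_false :
    ∑ y : Q → Bool, ((wprod (fun _ : Q => false) y : ℝ) : ℂ) = 1 := by
  rw [← Complex.ofReal_sum]
  have h := b2_sum_weight (fun _ : Q => false)
  unfold wprod
  rw [h]
  simp

/-- One term of the signed form without gates. -/
theorem em_term (ε : Q → Bool → Matrix Bool Bool ℂ) (O : Q → Matrix Bool Bool ℂ)
    (φ ψ : StateVec Q) (y : Q → Bool) :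
    ip (oneQubitLayer (fun p => ε p (y p)) φ)
        (oneQubitLayer O (oneQubitLayer (fun p => ε p (y p)) ψ))
      = ip φ (oneQubitLayer (fun p => if p ∈ (univ : Finset Q) then
          (ε p (y p)).conjTranspose * O p * ε p (y p) else 1) ψ) := by
  have h1 := ip_adj (fun p => (ε p (y p)).conjTranspose) φ
    (oneQubitLayer O (oneQubitLayer (fun p => ε p (y p)) ψ))
  simp only [Matrix.conjTranspose_conjTranspose] at h1
  rw [← h1, oneQubitLayer_comp, oneQubitLayer_comp]
  simp only [Finset.mem_univ, if_true, Matrix.mul_assoc]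

/-- Without gates the signed form is the pairing with the layer of the transferred matrices. -/
theorem sForm_empty (τ : Q → Bool) (ε : Q → Bool → Matrix Bool Bool ℂ)
    (O : Q → Matrix Bool Bool ℂ) (φ ψ : StateVec Q) :
    sForm τ ε ∅ O φ ψ = ip φ (oneQubitLayer (fun p => tMat (τ p) (ε p) (O p)) ψ) := by
  unfold sForm
  simp only [czLayer_empty]
  refine (Finset.sum_congr rfl (fun y _ => by rw [em_term ε O φ ψ y])).trans ?_
  refine (sum_wprod_layer τ (univ : Finset Q)
    (fun p b => (ε p b).conjTranspose * O p * ε p b) (fun _ χ => ip φ χ)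
    (fun _ a b => em_ip_add φ a b) (fun _ t a => em_ip_smul φ t a)
    (fun _ _ _ => rfl) ψ).trans ?_
  simp only [Finset.mem_univ, if_true]
  rw [← Finset.sum_mul, em_sum_wprod_false, one_mul]
  rfl

end Vale.Agent.Lib.P368
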