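import Vale.Agent.Lib.P368.Adv.Defs

/-!
# P368, ancilla preprocessing: summing the input bits of the qubits of a set `C`
-/

namespace Vale.Agent.Lib.P368

open Finset

variable {Q : Type} [Fintype Q] [DecidableEq Q]

/-- The input that agrees with `c` on `C` and with `y` off `C`. -/
def fu_mg (C : Finset Q) (c y : Q → Bool) : Q → Bool := fun p => if p ∈ C then c p else y p

/-- A layer of summed matrices on `C` is the weighted sum of the layers of the summands. -/
theorem fu_layer_sum (τ : Q → Bool) (C : Finset Q) (n : Q → Bool → Matrix Bool Bool ℂ)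
    (ψ : StateVec Q) :
    oneQubitLayer (fun p => if p ∈ C then ∑ b : Bool, ((wt (τ p) b : ℝ) : ℂ) • n p b else 1) ψ
      = ∑ c : Q → Bool, ((wprod (fun p => if p ∈ C then τ p else false) c : ℝ) : ℂ) •
          oneQubitLayer (fun p => if p ∈ C then n p (c p) else 1) ψ := by
  funext z
  rw [oneQubitLayer_apply, Finset.sum_apply]
  simp only [Pi.smul_apply, smul_eq_mul, oneQubitLayer_apply, Finset.mul_sum]
  rw [Finset.sum_comm]
  refine Finset.sum_congr rfl (fun w _ => ?_)
  have key : ∏ p, (if p ∈ C then ∑ b : Bool, ((wt (τ p) b : ℝ) : ℂ) • n p b else 1 :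
        Matrix Bool Bool ℂ) (z p) (w p)
      = ∑ c : Q → Bool, ((wprod (fun p => if p ∈ C then τ p else false) c : ℝ) : ℂ) *
          ∏ p, (if p ∈ C then n p (c p) else 1 : Matrix Bool Bool ℂ) (z p) (w p) := by
    have h1 : ∀ c : Q → Bool,
        ((wprod (fun p => if p ∈ C then τ p else false) c : ℝ) : ℂ) *
          ∏ p, (if p ∈ C then n p (c p) else 1 : Matrix Bool Bool ℂ) (z p) (w p)
        = ∏ p, (((wt (if p ∈ C then τ p else false) (c p) : ℝ) : ℂ) *
            (if p ∈ C then n p (c p) else 1 : Matrix Bool Bool ℂ) (z p) (w p)) := by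
      intro c
      unfold wprod
      rw [Complex.ofReal_prod, ← Finset.prod_mul_distrib]
    simp only [h1]
    rw [sum_prod_eq_prod_sum (fun p b => ((wt (if p ∈ C then τ p else false) b : ℝ) : ℂ) *
      (if p ∈ C then n p b else 1 : Matrix Bool Bool ℂ) (z p) (w p))]
    refine Finset.prod_congr rfl (fun p _ => ?_)
    by_cases hp : p ∈ C
    · simp only [if_pos hp, Matrix.sum_apply, Matrix.smul_apply, smul_eq_mul]
    · simp only [if_neg hp, Fintype.sum_bool, wt]
      simp
  rw [key, Finset.sum_mul]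
  refine Finset.sum_congr rfl (fun c _ => ?_)
  ring

omit [Fintype Q] [DecidableEq Q] in
/-- An additive and homogeneous functional commutes with finite linear combinations. -/
theorem fu_map_sum {ι : Type} (Ψ : StateVec Q → ℂ) (hadd : ∀ a b, Ψ (a + b) = Ψ a + Ψ b)
    (hsmul : ∀ (t : ℂ) (a : StateVec Q), Ψ (t • a) = t * Ψ a) (s : Finset ι) (t : ι → ℂ)
    (a : ι → StateVec Q) : Ψ (∑ c ∈ s, t c • a c) = ∑ c ∈ s, t c * Ψ (a c) := by
  classical
  induction s using Finset.induction_on with
  | empty =>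
    simp only [Finset.sum_empty]
    have h0 := hsmul 0 0
    rw [zero_smul, zero_mul] at h0
    exact h0
  | insert i s hi ih =>
    rw [Finset.sum_insert hi, Finset.sum_insert hi, hadd, hsmul, ih]

/-- Exchanging the bits on `C` of the two summation variables of a double sum. -/
theorem fu_sum_swap (C : Finset Q) (F : (Q → Bool) → (Q → Bool) → ℂ) :
    ∑ y : Q → Bool, ∑ c : Q → Bool, F y c
      = ∑ u : Q → Bool, ∑ v : Q → Bool, F (fu_mg C v u) (fu_mg C u v) := by
  rw [← Fintype.sum_prod_type', ← Fintype.sum_prod_type']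
  have hinv : Function.Involutive
      (fun x : (Q → Bool) × (Q → Bool) => (fu_mg C x.2 x.1, fu_mg C x.1 x.2)) := by
    intro x
    ext p <;> simp only [fu_mg] <;> split_ifs <;> rfl
  exact (Equiv.sum_comp hinv.toPerm (fun x => F x.1 x.2)).symm

/-- If the linear functionals `Φ y` do not depend on the bits of `y` in `C`, the weighted sum
over `y` of `Φ y` applied to a layer that depends on `y` only through the bits in `C` is the
sum, over the `y` that vanish on `C`, of `Φ y` applied to the layer of the summed matrices. -/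
theorem sum_wprod_layer (τ : Q → Bool) (C : Finset Q) (n : Q → Bool → Matrix Bool Bool ℂ)
    (Φ : (Q → Bool) → StateVec Q → ℂ)
    (hadd : ∀ (y : Q → Bool) (a b : StateVec Q), Φ y (a + b) = Φ y a + Φ y b)
    (hsmul : ∀ (y : Q → Bool) (t : ℂ) (a : StateVec Q), Φ y (t • a) = t * Φ y a)
    (hloc : ∀ y y' : Q → Bool, (∀ p, p ∉ C → y p = y' p) → Φ y = Φ y') (ψ : StateVec Q) :
    ∑ y : Q → Bool, ((wprod τ y : ℝ) : ℂ) *
        Φ y (oneQubitLayer (fun p => if p ∈ C then n p (y p) else 1) ψ) =
      ∑ y : Q → Bool, ((wprod (fun p => if p ∈ C then false else τ p) y : ℝ) : ℂ) *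
        Φ y (oneQubitLayer
          (fun p => if p ∈ C then ∑ b : Bool, ((wt (τ p) b : ℝ) : ℂ) • n p b else 1) ψ) := by
  classical
  symm
  have hR : ∀ y : Q → Bool,
      Φ y (oneQubitLayer
          (fun p => if p ∈ C then ∑ b : Bool, ((wt (τ p) b : ℝ) : ℂ) • n p b else 1) ψ)
        = ∑ c : Q → Bool, ((wprod (fun p => if p ∈ C then τ p else false) c : ℝ) : ℂ) *
            Φ y (oneQubitLayer (fun p => if p ∈ C then n p (c p) else 1) ψ) := by
    intro y
    rw [fu_layer_sum, fu_map_sum (Φ y) (hadd y) (hsmul y)]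
  simp only [hR, Finset.mul_sum]
  rw [fu_sum_swap C]
  refine Finset.sum_congr rfl (fun u _ => ?_)
  have hΦ : ∀ v, Φ (fu_mg C v u) = Φ u := fun v =>
    hloc _ _ (fun p hp => by simp only [fu_mg, if_neg hp])
  have hm : ∀ v : Q → Bool,
      (fun p => if p ∈ C then n p (fu_mg C u v p) else (1 : Matrix Bool Bool ℂ))
        = fun p => if p ∈ C then n p (u p) else 1 := by
    intro v
    funext p
    by_cases hp : p ∈ C
    · simp only [fu_mg, if_pos hp]
    · simp only [if_neg hp]
  have hw : ∀ v : Q → Bool,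
      ((wprod (fun p => if p ∈ C then false else τ p) (fu_mg C v u) : ℝ) : ℂ) *
          ((wprod (fun p => if p ∈ C then τ p else false) (fu_mg C u v) : ℝ) : ℂ)
        = ((wprod τ u : ℝ) : ℂ) * ((wprod (fun _ => false) v : ℝ) : ℂ) := by
    intro v
    rw [← Complex.ofReal_mul, ← Complex.ofReal_mul]
    congr 1
    unfold wprod
    rw [← Finset.prod_mul_distrib, ← Finset.prod_mul_distrib]
    refine Finset.prod_congr rfl (fun p _ => ?_)
    by_cases hp : p ∈ C
    · simp only [fu_mg, if_pos hp]
      ring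
    · simp only [fu_mg, if_neg hp]
  have hsum : ∑ v : Q → Bool, ((wprod (fun _ => false) v : ℝ) : ℂ) = 1 := by
    rw [← Complex.ofReal_sum]
    unfold wprod
    rw [sum_prod_eq_prod_sum_real (fun _ b => wt false b)]
    simp [wt]
  have e : ∀ v : Q → Bool,
      ((wprod (fun p => if p ∈ C then false else τ p) (fu_mg C v u) : ℝ) : ℂ) *
          (((wprod (fun p => if p ∈ C then τ p else false) (fu_mg C u v) : ℝ) : ℂ) *
            Φ (fu_mg C v u)
              (oneQubitLayer (fun p => if p ∈ C then n p (fu_mg C u v p) else 1) ψ))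
        = ((wprod (fun _ => false) v : ℝ) : ℂ) * (((wprod τ u : ℝ) : ℂ) *
            Φ u (oneQubitLayer (fun p => if p ∈ C then n p (u p) else 1) ψ)) := by
    intro v
    rw [hΦ v, hm v, ← mul_assoc, hw v]
    ring
  rw [Finset.sum_congr rfl (fun v _ => e v), ← Finset.sum_mul, hsum, one_mul]

end Vale.Agent.Lib.P368
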