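import Vale.Agent.Lib.P368.Adv.Defs

/-!
# P368, ancilla preprocessing: the operator of a gate is linear and self-adjoint
-/

namespace Vale.Agent.Lib.P368

open Finset

variable {Q : Type} [Fintype Q] [DecidableEq Q]

/-- A layer of one-qubit matrices is additive. -/
theorem he_layer_add (u : Q → Matrix Bool Bool ℂ) (a b : StateVec Q) :
    oneQubitLayer u (a + b) = oneQubitLayer u a + oneQubitLayer u b := by
  funext z
  simp only [oneQubitLayer_apply, Pi.add_apply, mul_add, Finset.sum_add_distrib]

/-- A layer of one-qubit matrices is homogeneous. -/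
theorem he_layer_smul (u : Q → Matrix Bool Bool ℂ) (t : ℂ) (a : StateVec Q) :
    oneQubitLayer u (t • a) = t • oneQubitLayer u a := by
  funext z
  simp only [oneQubitLayer_apply, Pi.smul_apply, smul_eq_mul, Finset.mul_sum]
  refine Finset.sum_congr rfl fun w _ => ?_
  ring

/-- The pairing is conjugate-symmetric. -/
theorem he_ip_conj (a b : StateVec Q) : ip a b = (starRingEnd ℂ) (ip b a) := by
  unfold ip
  rw [map_sum]
  refine Finset.sum_congr rfl fun z _ => ?_
  rw [map_mul, Complex.conj_conj, mul_comm]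

/-- The pairing with a combination of four vectors. -/
theorem he_ip_comb (φ G1 G2 G3 G4 : StateVec Q) :
    ip φ (fun z => G1 z - 2 * G2 z - 2 * G3 z + 4 * G4 z) =
      ip φ G1 - 2 * ip φ G2 - 2 * ip φ G3 + 4 * ip φ G4 := by
  unfold ip
  have h : ∀ z, (starRingEnd ℂ) (φ z) * (G1 z - 2 * G2 z - 2 * G3 z + 4 * G4 z) =
      (starRingEnd ℂ) (φ z) * G1 z - 2 * ((starRingEnd ℂ) (φ z) * G2 z) -
        2 * ((starRingEnd ℂ) (φ z) * G3 z) + 4 * ((starRingEnd ℂ) (φ z) * G4 z) :=
    fun z => by ring
  simp only [h, Finset.sum_add_distrib, Finset.sum_sub_distrib, ← Finset.mul_sum]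

/-- The adjoint of a transferred matrix. -/
theorem he_tMat_conjTranspose (t : Bool) (e : Bool → Matrix Bool Bool ℂ)
    (X : Matrix Bool Bool ℂ) : (tMat t e X).conjTranspose = tMat t e X.conjTranspose := by
  unfold tMat
  rw [Matrix.conjTranspose_sum]
  refine Finset.sum_congr rfl fun b _ => ?_
  rw [Matrix.conjTranspose_smul, Matrix.conjTranspose_mul, Matrix.conjTranspose_mul,
    Matrix.conjTranspose_conjTranspose, Matrix.mul_assoc]
  congr 1
  simp

/-- The pairing through a layer, with the adjoint layer on the other side. -/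
theorem he_key (M : Q → Matrix Bool Bool ℂ) (α β : StateVec Q) :
    ip α (oneQubitLayer M β) =
      (starRingEnd ℂ) (ip β (oneQubitLayer (fun p => (M p).conjTranspose) α)) := by
  rw [ip_adj, he_ip_conj]

/-- A combination of four layers with coefficients `1`, `-2`, `-2`, `4` is self-adjoint when
the first and the last layer are self-adjoint and the two middle layers are adjoint to each
other. -/
theorem he_herm_aux (M1 M2 M3 M4 : Q → Matrix Bool Bool ℂ)
    (h1 : (fun p => (M1 p).conjTranspose) = M1) (h2 : (fun p => (M2 p).conjTranspose) = M3)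
    (h3 : (fun p => (M3 p).conjTranspose) = M2) (h4 : (fun p => (M4 p).conjTranspose) = M4)
    (φ ψ : StateVec Q) :
    ip φ (fun z => oneQubitLayer M1 ψ z - 2 * oneQubitLayer M2 ψ z -
        2 * oneQubitLayer M3 ψ z + 4 * oneQubitLayer M4 ψ z) =
      (starRingEnd ℂ) (ip ψ (fun z => oneQubitLayer M1 φ z - 2 * oneQubitLayer M2 φ z -
        2 * oneQubitLayer M3 φ z + 4 * oneQubitLayer M4 φ z)) := by
  rw [he_ip_comb, he_ip_comb, he_key M1 φ ψ, he_key M2 φ ψ, he_key M3 φ ψ, he_key M4 φ ψ,
    h1, h2, h3, h4]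
  simp only [map_sub, map_add, map_mul, map_ofNat]
  ring

theorem gOp_add (τ : Q → Bool) (ε : Q → Bool → Matrix Bool Bool ℂ)
    (O : Q → Matrix Bool Bool ℂ) (C : Finset Q) (a b : StateVec Q) :
    gOp τ ε O C (a + b) = gOp τ ε O C a + gOp τ ε O C b := by
  funext z
  simp only [gOp, he_layer_add, Pi.add_apply]
  ring

theorem gOp_smul (τ : Q → Bool) (ε : Q → Bool → Matrix Bool Bool ℂ)
    (O : Q → Matrix Bool Bool ℂ) (C : Finset Q) (t : ℂ) (a : StateVec Q) :
    gOp τ ε O C (t • a) = t • gOp τ ε O C a := by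
  funext z
  simp only [gOp, he_layer_smul, Pi.smul_apply, smul_eq_mul]
  ring

/-- The operator of a gate is self-adjoint when the matrices `O p` are. -/
theorem gOp_herm (τ : Q → Bool) (ε : Q → Bool → Matrix Bool Bool ℂ)
    (O : Q → Matrix Bool Bool ℂ) (C : Finset Q) (hO : ∀ p, (O p).conjTranspose = O p)
    (φ ψ : StateVec Q) :
    ip φ (gOp τ ε O C ψ) = (starRingEnd ℂ) (ip ψ (gOp τ ε O C φ)) := by
  have e1 : (fun p => (if p ∈ C then tMat (τ p) (ε p) (O p)
      else (1 : Matrix Bool Bool ℂ)).conjTranspose) =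
      fun p => if p ∈ C then tMat (τ p) (ε p) (O p) else 1 := by
    funext p
    split_ifs
    · rw [he_tMat_conjTranspose, hO]
    · exact Matrix.conjTranspose_one
  have e2 : (fun p => (if p ∈ C then tMat (τ p) (ε p) (projOne * O p)
      else (1 : Matrix Bool Bool ℂ)).conjTranspose) =
      fun p => if p ∈ C then tMat (τ p) (ε p) (O p * projOne) else 1 := by
    funext p
    split_ifs
    · rw [he_tMat_conjTranspose, Matrix.conjTranspose_mul, hO, gp_projOne_conjTranspose]
    · exact Matrix.conjTranspose_one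
  have e3 : (fun p => (if p ∈ C then tMat (τ p) (ε p) (O p * projOne)
      else (1 : Matrix Bool Bool ℂ)).conjTranspose) =
      fun p => if p ∈ C then tMat (τ p) (ε p) (projOne * O p) else 1 := by
    funext p
    split_ifs
    · rw [he_tMat_conjTranspose, Matrix.conjTranspose_mul, hO, gp_projOne_conjTranspose]
    · exact Matrix.conjTranspose_one
  have e4 : (fun p => (if p ∈ C then tMat (τ p) (ε p) (projOne * O p * projOne)
      else (1 : Matrix Bool Bool ℂ)).conjTranspose) =
      fun p => if p ∈ C then tMat (τ p) (ε p) (projOne * O p * projOne) else 1 := by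
    funext p
    split_ifs
    · rw [he_tMat_conjTranspose, Matrix.conjTranspose_mul, Matrix.conjTranspose_mul, hO,
        gp_projOne_conjTranspose, Matrix.mul_assoc]
    · exact Matrix.conjTranspose_one
  exact he_herm_aux _ _ _ _ e1 e2 e3 e4 φ ψ

end Vale.Agent.Lib.P368
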