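import Vale.Agent.Lib.P368.Adv.Defs

/-!
# P368, ancilla preprocessing: the transferred matrices of an input qubit have norm at most one
-/

namespace Vale.Agent.Lib.P368

open Finset

/-- The quadratic expression of the column `b` of `u` in the matrix `X`. -/
noncomputable def tt_sig (u X : Matrix Bool Bool ℂ) (b : Bool) : ℂ :=
  (starRingEnd ℂ) (u false b) * X false false * u false b
    + (starRingEnd ℂ) (u false b) * X false true * u true b
    + (starRingEnd ℂ) (u true b) * X true false * u false b
    + (starRingEnd ℂ) (u true b) * X true true * u true b

/-- The transferred matrix of an input qubit has a single nonzero entry. -/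
theorem tt_tMat (u X : Matrix Bool Bool ℂ) :
    tMat true (colMat u) X
      = fun i j => if i = false ∧ j = false then tt_sig u X false - tt_sig u X true else 0 := by
  ext i j
  cases i <;> cases j
  · simp [tMat, colMat, wt, Matrix.mul_apply, Matrix.conjTranspose_apply, tt_sig,
      Matrix.add_apply]
    ring
  · simp [tMat, colMat, wt, Matrix.mul_apply, Matrix.conjTranspose_apply, Matrix.add_apply]
  · simp [tMat, colMat, wt, Matrix.mul_apply, Matrix.conjTranspose_apply, Matrix.add_apply]
  · simp [tMat, colMat, wt, Matrix.mul_apply, Matrix.conjTranspose_apply, Matrix.add_apply]

/-- A matrix with the single entry `s` of modulus at most one is a contraction. -/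
theorem tt_contr (s : ℂ) (hs : Complex.normSq s ≤ 1) :
    IsContr (fun i j : Bool => if i = false ∧ j = false then s else 0) := by
  intro a b
  have h1 : Complex.normSq (s * a) ≤ Complex.normSq a := by
    rw [Complex.normSq_mul]
    have := Complex.normSq_nonneg a
    nlinarith
  have h2 := Complex.normSq_nonneg b
  have h3 : Complex.normSq (s * a) + 0 ≤ Complex.normSq a + Complex.normSq b := by linarith
  simpa using h3

/-- The conjugate transpose of a unitary is a contraction, written out. -/
theorem tt_star (u : Matrix Bool Bool ℂ) (hu : u ∈ Matrix.unitaryGroup Bool ℂ) (α β : ℂ) :
    Complex.normSq ((starRingEnd ℂ) (u false false) * α + (starRingEnd ℂ) (u true false) * β)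
      + Complex.normSq ((starRingEnd ℂ) (u false true) * α + (starRingEnd ℂ) (u true true) * β)
      ≤ Complex.normSq α + Complex.normSq β := by
  have h := isContr_of_unitary (star u) (Unitary.star_mem hu) α β
  simpa [Matrix.star_apply] using h

/-- The transpose of a unitary is a contraction, written out. -/
theorem tt_transpose (u : Matrix Bool Bool ℂ) (hu : u ∈ Matrix.unitaryGroup Bool ℂ) (α β : ℂ) :
    Complex.normSq (u false false * α + u true false * β)
      + Complex.normSq (u false true * α + u true true * β)
      ≤ Complex.normSq α + Complex.normSq β := by
  have h := tt_star u hu ((starRingEnd ℂ) α) ((starRingEnd ℂ) β)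
  have e1 : (starRingEnd ℂ) (u false false) * (starRingEnd ℂ) α
      + (starRingEnd ℂ) (u true false) * (starRingEnd ℂ) β
      = (starRingEnd ℂ) (u false false * α + u true false * β) := by
    simp only [map_add, map_mul]
  have e2 : (starRingEnd ℂ) (u false true) * (starRingEnd ℂ) α
      + (starRingEnd ℂ) (u true true) * (starRingEnd ℂ) β
      = (starRingEnd ℂ) (u false true * α + u true true * β) := by
    simp only [map_add, map_mul]
  rw [e1, e2] at h
  simpa only [Complex.normSq_conj] using h

theorem isContr_tMat_true_pos (u : Matrix Bool Bool ℂ) (hu : u ∈ Matrix.unitaryGroup Bool ℂ)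
    (O : Matrix Bool Bool ℂ) (hO : IsPos O) : IsContr (tMat true (colMat u) O) := by
  obtain ⟨m, hm, rfl⟩ := hO
  rw [tt_tMat]
  apply tt_contr
  have hx : ∀ b : Bool, tt_sig u (m.conjTranspose * m) b
      = ((Complex.normSq (m false false * u false b + m false true * u true b)
        + Complex.normSq (m true false * u false b + m true true * u true b) : ℝ) : ℂ) := by
    intro b
    simp only [tt_sig, Matrix.mul_apply, Matrix.conjTranspose_apply, Fintype.sum_bool,
      Complex.star_def]
    push_cast
    rw [Complex.normSq_eq_conj_mul_self, Complex.normSq_eq_conj_mul_self]
    simp only [map_add, map_mul]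
    ring
  have hb : ∀ b : Bool,
      Complex.normSq (m false false * u false b + m false true * u true b)
        + Complex.normSq (m true false * u false b + m true true * u true b) ≤ 1 := by
    intro b
    have h1 := hm (u false b) (u true b)
    have h2 := unitary_col u hu b
    rw [Fintype.sum_bool] at h2
    linarith
  have hn : ∀ b : Bool,
      0 ≤ Complex.normSq (m false false * u false b + m false true * u true b)
        + Complex.normSq (m true false * u false b + m true true * u true b) := by
    intro b
    have := Complex.normSq_nonneg (m false false * u false b + m false true * u true b)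
    have := Complex.normSq_nonneg (m true false * u false b + m true true * u true b)
    linarith
  rw [hx false, hx true, ← Complex.ofReal_sub, Complex.normSq_ofReal]
  nlinarith [hb false, hb true, hn false, hn true]

theorem isContr_tMat_true_left (u : Matrix Bool Bool ℂ) (hu : u ∈ Matrix.unitaryGroup Bool ℂ)
    (Y : Matrix Bool Bool ℂ) (hY : IsContr Y) : IsContr (tMat true (colMat u) (projOne * Y)) := by
  rw [tt_tMat]
  apply tt_contr
  have hs : ∀ b : Bool, tt_sig u (projOne * Y) b
      = (starRingEnd ℂ) (u true b) * (Y true false * u false b + Y true true * u true b) := by
    intro b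
    simp [tt_sig, projOne, Matrix.mul_apply]
    ring
  have e : tt_sig u (projOne * Y) false - tt_sig u (projOne * Y) true
      = (starRingEnd ℂ) (u true false) * (Y true false * u false false + Y true true * u true false)
        + (-(starRingEnd ℂ) (u true true))
          * (Y true false * u false true + Y true true * u true true) := by
    rw [hs false, hs true]
    ring
  rw [e]
  have h1 := ct_cs ((starRingEnd ℂ) (u true false)) (-(starRingEnd ℂ) (u true true))
    (Y true false * u false false + Y true true * u true false)
    (Y true false * u false true + Y true true * u true true)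
  have h2 := unitary_row u hu true
  rw [Complex.normSq_neg, Complex.normSq_conj, Complex.normSq_conj, h2, one_mul] at h1
  have h3 := tt_transpose u hu (Y true false) (Y true true)
  have e3 : u false false * Y true false + u true false * Y true true
      = Y true false * u false false + Y true true * u true false := by ring
  have e4 : u false true * Y true false + u true true * Y true true
      = Y true false * u false true + Y true true * u true true := by ring
  rw [e3, e4] at h3
  have h4 := isContr_conjTranspose Y hY 0 1
  simp only [Matrix.conjTranspose_apply, Complex.star_def, mul_zero, mul_one, zero_add,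
    Complex.normSq_conj, map_zero, map_one] at h4
  linarith

theorem isContr_tMat_true_right (u : Matrix Bool Bool ℂ) (hu : u ∈ Matrix.unitaryGroup Bool ℂ)
    (Y : Matrix Bool Bool ℂ) (hY : IsContr Y) : IsContr (tMat true (colMat u) (Y * projOne)) := by
  rw [tt_tMat]
  apply tt_contr
  have hs : ∀ b : Bool, tt_sig u (Y * projOne) b
      = ((starRingEnd ℂ) (u false b) * Y false true + (starRingEnd ℂ) (u true b) * Y true true)
        * u true b := by
    intro b
    simp [tt_sig, projOne, Matrix.mul_apply]
    ring
  have e : tt_sig u (Y * projOne) false - tt_sig u (Y * projOne) true
      = ((starRingEnd ℂ) (u false false) * Y false true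
          + (starRingEnd ℂ) (u true false) * Y true true) * u true false
        + ((starRingEnd ℂ) (u false true) * Y false true
          + (starRingEnd ℂ) (u true true) * Y true true) * (-(u true true)) := by
    rw [hs false, hs true]
    ring
  rw [e]
  have h1 := ct_cs ((starRingEnd ℂ) (u false false) * Y false true
      + (starRingEnd ℂ) (u true false) * Y true true)
    ((starRingEnd ℂ) (u false true) * Y false true
      + (starRingEnd ℂ) (u true true) * Y true true)
    (u true false) (-(u true true))
  have h2 := unitary_row u hu true
  rw [Complex.normSq_neg, h2, mul_one] at h1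
  have h3 := tt_star u hu (Y false true) (Y true true)
  have h4 := hY 0 1
  simp only [mul_zero, mul_one, zero_add, map_zero, map_one] at h4
  linarith

end Vale.Agent.Lib.P368
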