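import Vale.Agent.Lib.P368.Adv.TMat
import Vale.Agent.Lib.P368.Adv.TMatT

/-!
# P368, ancilla preprocessing: the operator of a gate has norm at most nine
-/

namespace Vale.Agent.Lib.P368

open Finset

variable {Q : Type} [Fintype Q] [DecidableEq Q]

omit [Fintype Q] in
/-- The matrices of one of the four layers are contractions. -/
theorem ni_contr (τ : Q → Bool) (ε : Q → Bool → Matrix Bool Bool ℂ) (C : Finset Q)
    (hadm : Adm τ ε) (X : Q → Matrix Bool Bool ℂ) (hX : ∀ p, IsContr (X p))
    (hXt : ∀ p, ∀ u : Matrix Bool Bool ℂ, u ∈ Matrix.unitaryGroup Bool ℂ →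
      IsContr (tMat true (colMat u) (X p))) :
    ∀ p, IsContr (if p ∈ C then tMat (τ p) (ε p) (X p) else 1) := by
  intro p
  by_cases hp : p ∈ C
  · rw [if_pos hp]
    cases h : τ p with
    | true =>
      obtain ⟨u, hu, hε⟩ := (hadm p).1 h
      have e : ε p = colMat u := funext hε
      rw [e]
      exact hXt p u hu
    | false =>
      exact isContr_tMat_false (ε p) (X p) ((hadm p).2 h) (hX p)
  · rw [if_neg hp]
    exact isContr_one

/-- The weighted Cauchy-Schwarz inequality for the coefficients `1, -2, -2, 4`. -/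
theorem ni_cs (a b c d : ℂ) :
    Complex.normSq (a - 2 * b - 2 * c + 4 * d)
      ≤ 9 * (Complex.normSq a + 2 * Complex.normSq b + 2 * Complex.normSq c
        + 4 * Complex.normSq d) := by
  have key : ∀ x y z w : ℝ,
      (x - 2 * y - 2 * z + 4 * w) ^ 2 ≤ 9 * (x ^ 2 + 2 * y ^ 2 + 2 * z ^ 2 + 4 * w ^ 2) := by
    intro x y z w
    nlinarith [sq_nonneg (x + y), sq_nonneg (x + z), sq_nonneg (x - w), sq_nonneg (y - z),
      sq_nonneg (y + w), sq_nonneg (z + w)]
  have hre : (a - 2 * b - 2 * c + 4 * d).re = a.re - 2 * b.re - 2 * c.re + 4 * d.re := by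
    simp
  have him : (a - 2 * b - 2 * c + 4 * d).im = a.im - 2 * b.im - 2 * c.im + 4 * d.im := by
    simp
  rw [Complex.normSq_apply, Complex.normSq_apply, Complex.normSq_apply, Complex.normSq_apply,
    Complex.normSq_apply, hre, him]
  nlinarith [key a.re b.re c.re d.re, key a.im b.im c.im d.im]

theorem gOp_norm_nine (τ : Q → Bool) (ε : Q → Bool → Matrix Bool Bool ℂ)
    (O : Q → Matrix Bool Bool ℂ) (C : Finset Q) (hadm : Adm τ ε) (hO : ∀ p, IsPos (O p))
    (ψ : StateVec Q) : normSqSum (gOp τ ε O C ψ) ≤ 81 * normSqSum ψ := by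
  have h1 := normSqSum_oneQubitLayer_le
    (fun p => if p ∈ C then tMat (τ p) (ε p) (O p) else 1)
    (ni_contr τ ε C hadm O (fun p => isContr_of_isPos _ (hO p))
      (fun p u hu => isContr_tMat_true_pos u hu (O p) (hO p))) ψ
  have h2 := normSqSum_oneQubitLayer_le
    (fun p => if p ∈ C then tMat (τ p) (ε p) (projOne * O p) else 1)
    (ni_contr τ ε C hadm (fun p => projOne * O p)
      (fun p => isContr_mul _ _ isContr_projOne (isContr_of_isPos _ (hO p)))
      (fun p u hu => isContr_tMat_true_left u hu (O p) (isContr_of_isPos _ (hO p)))) ψ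
  have h3 := normSqSum_oneQubitLayer_le
    (fun p => if p ∈ C then tMat (τ p) (ε p) (O p * projOne) else 1)
    (ni_contr τ ε C hadm (fun p => O p * projOne)
      (fun p => isContr_mul _ _ (isContr_of_isPos _ (hO p)) isContr_projOne)
      (fun p u hu => isContr_tMat_true_right u hu (O p) (isContr_of_isPos _ (hO p)))) ψ
  have h4 := normSqSum_oneQubitLayer_le
    (fun p => if p ∈ C then tMat (τ p) (ε p) (projOne * O p * projOne) else 1)
    (ni_contr τ ε C hadm (fun p => projOne * O p * projOne)
      (fun p => isContr_of_isPos _ (isPos_projOne_mul (O p) (hO p)))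
      (fun p u hu => isContr_tMat_true_pos u hu _ (isPos_projOne_mul (O p) (hO p)))) ψ
  unfold normSqSum at h1 h2 h3 h4 ⊢
  have hpt : ∀ z : Q → Bool, Complex.normSq (gOp τ ε O C ψ z)
      ≤ 9 * (Complex.normSq
          (oneQubitLayer (fun p => if p ∈ C then tMat (τ p) (ε p) (O p) else 1) ψ z)
        + 2 * Complex.normSq
          (oneQubitLayer (fun p => if p ∈ C then tMat (τ p) (ε p) (projOne * O p) else 1) ψ z)
        + 2 * Complex.normSq
          (oneQubitLayer (fun p => if p ∈ C then tMat (τ p) (ε p) (O p * projOne) else 1) ψ z)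
        + 4 * Complex.normSq
          (oneQubitLayer
            (fun p => if p ∈ C then tMat (τ p) (ε p) (projOne * O p * projOne) else 1) ψ z)) :=
    fun z => ni_cs _ _ _ _
  have hsum := Finset.sum_le_sum (fun z (_ : z ∈ (Finset.univ : Finset (Q → Bool))) => hpt z)
  simp only [Finset.sum_add_distrib, ← Finset.mul_sum] at hsum
  linarith

end Vale.Agent.Lib.P368
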