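import Vale.Agent.Lib.P368.Adv.Pos
import Vale.Agent.Lib.P368.Adv.Nine
import Vale.Agent.Lib.P368.Adv.Empty

/-!
# P368, ancilla preprocessing: the bound on the signed form through one layer of gates
-/

namespace Vale.Agent.Lib.P368

open Finset

variable {Q : Type} [Fintype Q] [DecidableEq Q]

omit [Fintype Q] [DecidableEq Q] in
/-- The transferred matrix of admissible data at a positive observable is a contraction. -/
theorem kl_contr (τ : Q → Bool) (ε : Q → Bool → Matrix Bool Bool ℂ) (O : Q → Matrix Bool Bool ℂ)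
    (hadm : Adm τ ε) (hO : ∀ p, IsPos (O p)) (p : Q) :
    IsContr (tMat (τ p) (ε p) (O p)) := by
  rcases hτ : τ p with _ | _
  · exact isContr_tMat_false (ε p) (O p) ((hadm p).2 hτ) (isContr_of_isPos _ (hO p))
  · obtain ⟨u, hu, hε⟩ := (hadm p).1 hτ
    have hεu : ε p = colMat u := funext hε
    rw [hεu]
    exact isContr_tMat_true_pos u hu (O p) (hO p)

/-- The norm of the gate operator, with the constant `min 9 (2 ^ (k - 1))`. -/
theorem kl_gOp_sqrt (τ : Q → Bool) (ε : Q → Bool → Matrix Bool Bool ℂ)
    (O : Q → Matrix Bool Bool ℂ) (C : Finset Q) (hadm : Adm τ ε) (hO : ∀ p, IsPos (O p))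
    (ψ : StateVec Q) :
    Real.sqrt (normSqSum (gOp τ ε O C ψ)) ≤
      (12 / 7 : ℝ) ^ (C.filter fun p => τ p = true).card * Real.sqrt (normSqSum ψ) := by
  set kC := (C.filter fun p => τ p = true).card with hkC
  have hμ0 : (0 : ℝ) ≤ min (9 : ℝ) (2 ^ (kC - 1)) := le_min (by norm_num) (by positivity)
  have hψ0 : 0 ≤ normSqSum ψ := gd_normSqSum_nonneg ψ
  have h9 := gOp_norm_nine τ ε O C hadm hO ψ
  have hp := gOp_norm_pos τ ε O C hadm hO ψ
  have hb : normSqSum (gOp τ ε O C ψ) ≤ (min (9 : ℝ) (2 ^ (kC - 1))) ^ 2 * normSqSum ψ := by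
    rcases le_total (9 : ℝ) (2 ^ (kC - 1)) with h | h
    · rw [min_eq_left h]
      calc normSqSum (gOp τ ε O C ψ) ≤ 81 * normSqSum ψ := h9
        _ = (9 : ℝ) ^ 2 * normSqSum ψ := by norm_num
    · rw [min_eq_right h]
      exact hp
  have hs : Real.sqrt (normSqSum (gOp τ ε O C ψ)) ≤
      min (9 : ℝ) (2 ^ (kC - 1)) * Real.sqrt (normSqSum ψ) := by
    calc Real.sqrt (normSqSum (gOp τ ε O C ψ))
        ≤ Real.sqrt ((min (9 : ℝ) (2 ^ (kC - 1))) ^ 2 * normSqSum ψ) := Real.sqrt_le_sqrt hb
      _ = min (9 : ℝ) (2 ^ (kC - 1)) * Real.sqrt (normSqSum ψ) := by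
          rw [Real.sqrt_mul (sq_nonneg _), Real.sqrt_sq hμ0]
  exact hs.trans (mul_le_mul_of_nonneg_right (nine_min_le kC) (Real.sqrt_nonneg _))

/-- The flagged qubits split into those outside `C` and those of `C`. -/
theorem kl_card (τ : Q → Bool) (C : Finset Q) :
    (univ.filter fun p => (if p ∈ C then false else τ p) = true).card +
      (C.filter fun p => τ p = true).card = (univ.filter fun p => τ p = true).card := by
  have h1 : (univ.filter fun p => (if p ∈ C then false else τ p) = true) =
      (univ.filter fun p => τ p = true).filter (fun p => ¬ p ∈ C) := by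
    ext p
    by_cases hp : p ∈ C <;> simp [hp]
  have h2 : (C.filter fun p => τ p = true) =
      (univ.filter fun p => τ p = true).filter (fun p => p ∈ C) := by
    ext p
    simp [and_comm]
  rw [h1, h2, add_comm]
  exact Finset.card_filter_add_card_filter_not (fun p => p ∈ C)

/-- The signed form through a layer of multi-controlled `Z` gates with pairwise disjoint
supports is bounded by `(12/7)^k` times the norms of the two vectors, `k` the number of
flagged qubits. -/
theorem sForm_bound (L : Finset (Finset Q)) (hL : (L : Set (Finset Q)).PairwiseDisjoint id)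
    (τ : Q → Bool) (ε : Q → Bool → Matrix Bool Bool ℂ) (O : Q → Matrix Bool Bool ℂ)
    (hadm : Adm τ ε) (hO : ∀ p, IsPos (O p)) (φ ψ : StateVec Q) :
    ‖sForm τ ε L O φ ψ‖ ≤ (12 / 7 : ℝ) ^ (univ.filter fun p => τ p = true).card *
      (Real.sqrt (normSqSum φ) * Real.sqrt (normSqSum ψ)) := by
  revert hL τ ε O hadm hO φ ψ
  induction L using Finset.induction_on with
  | empty =>
    intro _ τ ε O hadm hO φ ψ
    rw [sForm_empty]
    have h1 := norm_ip_le φ (oneQubitLayer (fun p => tMat (τ p) (ε p) (O p)) ψ)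
    have h2 : normSqSum (oneQubitLayer (fun p => tMat (τ p) (ε p) (O p)) ψ) ≤ normSqSum ψ :=
      normSqSum_oneQubitLayer_le _ (fun p => kl_contr τ ε O hadm hO p) ψ
    have h3 : Real.sqrt (normSqSum (oneQubitLayer (fun p => tMat (τ p) (ε p) (O p)) ψ)) ≤
        Real.sqrt (normSqSum ψ) := Real.sqrt_le_sqrt h2
    have h4 : (1 : ℝ) ≤ (12 / 7 : ℝ) ^ (univ.filter fun p => τ p = true).card :=
      one_le_pow₀ (by norm_num)
    have h5 : 0 ≤ Real.sqrt (normSqSum φ) * Real.sqrt (normSqSum ψ) :=
      mul_nonneg (Real.sqrt_nonneg _) (Real.sqrt_nonneg _)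
    calc ‖ip φ (oneQubitLayer (fun p => tMat (τ p) (ε p) (O p)) ψ)‖
        ≤ Real.sqrt (normSqSum φ) *
          Real.sqrt (normSqSum (oneQubitLayer (fun p => tMat (τ p) (ε p) (O p)) ψ)) := h1
      _ ≤ Real.sqrt (normSqSum φ) * Real.sqrt (normSqSum ψ) :=
          mul_le_mul_of_nonneg_left h3 (Real.sqrt_nonneg _)
      _ = 1 * (Real.sqrt (normSqSum φ) * Real.sqrt (normSqSum ψ)) := (one_mul _).symm
      _ ≤ (12 / 7 : ℝ) ^ (univ.filter fun p => τ p = true).card *
          (Real.sqrt (normSqSum φ) * Real.sqrt (normSqSum ψ)) :=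
          mul_le_mul_of_nonneg_right h4 h5
  | insert C L' hC ih =>
    intro hL τ ε O hadm hO φ ψ
    have hL' : (L' : Set (Finset Q)).PairwiseDisjoint id :=
      Set.PairwiseDisjoint.subset hL (Finset.coe_subset.mpr (Finset.subset_insert _ _))
    have hdisj : ∀ S ∈ L', Disjoint S C := by
      intro S hS
      have h := hL (Finset.mem_coe.mpr (Finset.mem_insert_of_mem hS))
        (Finset.mem_coe.mpr (Finset.mem_insert_self _ _)) (ne_of_mem_of_not_mem hS hC)
      simpa [Function.onFun] using h
    rw [sForm_peel τ ε L' O C hC hdisj φ ψ]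
    have hadm' : Adm (fun p => if p ∈ C then false else τ p)
        (fun p b => if p ∈ C then 1 else ε p b) := by
      intro p
      by_cases hp : p ∈ C
      · refine ⟨fun h => ?_, fun _ => ?_⟩
        · simp [hp] at h
        · simp only [hp, if_true]
          exact isContr_one
      · simp only [hp, if_false]
        exact hadm p
    have hO' : ∀ p, IsPos ((fun p => if p ∈ C then (1 : Matrix Bool Bool ℂ) else O p) p) := by
      intro p
      by_cases hp : p ∈ C
      · simp only [hp, if_true]
        exact isPos_one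
      · simp only [hp, if_false]
        exact hO p
    have hih := ih hL' (fun p => if p ∈ C then false else τ p)
      (fun p b => if p ∈ C then 1 else ε p b) (fun p => if p ∈ C then 1 else O p) hadm' hO' φ
      (gOp τ ε O C ψ)
    have hg := kl_gOp_sqrt τ ε O C hadm hO ψ
    have hcard := kl_card τ C
    have hk0 : (0 : ℝ) ≤
        (12 / 7 : ℝ) ^ (univ.filter fun p => (if p ∈ C then false else τ p) = true).card := by
      positivity
    calc ‖sForm (fun p => if p ∈ C then false else τ p) (fun p b => if p ∈ C then 1 else ε p b)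
          L' (fun p => if p ∈ C then 1 else O p) φ (gOp τ ε O C ψ)‖
        ≤ (12 / 7 : ℝ) ^ (univ.filter fun p => (if p ∈ C then false else τ p) = true).card *
          (Real.sqrt (normSqSum φ) * Real.sqrt (normSqSum (gOp τ ε O C ψ))) := hih
      _ ≤ (12 / 7 : ℝ) ^ (univ.filter fun p => (if p ∈ C then false else τ p) = true).card *
          (Real.sqrt (normSqSum φ) * ((12 / 7 : ℝ) ^ (C.filter fun p => τ p = true).card *
            Real.sqrt (normSqSum ψ))) :=
          mul_le_mul_of_nonneg_left
            (mul_le_mul_of_nonneg_left hg (Real.sqrt_nonneg _)) hk0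
      _ = (12 / 7 : ℝ) ^ (univ.filter fun p => τ p = true).card *
          (Real.sqrt (normSqSum φ) * Real.sqrt (normSqSum ψ)) := by
          rw [← hcard, pow_add]
          ring

end Vale.Agent.Lib.P368
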