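import Vale.Agent.Lib.P368.Adv.Defs

/-!
# P368, ancilla preprocessing: the state after layers whose generalized Toffoli gates avoid the
input qubits
-/

namespace Vale.Agent.Lib.P368

open Finset

variable {Q : Type} [Fintype Q] [DecidableEq Q]

/-- A matrix times the column matrix of `w` is the column matrix of the product. -/
theorem pf_colMat_mul (u w : Matrix Bool Bool ℂ) (b : Bool) :
    u * colMat w b = colMat (u * w) b := by
  ext i j
  simp only [Matrix.mul_apply, colMat]
  split_ifs
  · rfl
  · simp

omit [Fintype Q] in
/-- The matrices of a single unitary gate are unitary. -/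
theorem pf_singleGate_mem (p : Q) (u : Matrix Bool Bool ℂ)
    (hu : u ∈ Matrix.unitaryGroup Bool ℂ) (r : Q) :
    singleGate p u r ∈ Matrix.unitaryGroup Bool ℂ := by
  unfold singleGate
  split_ifs
  · exact hu
  · exact one_mem _

/-- Gate step: a valid gate, which if it is a generalized Toffoli gate avoids the input qubits,
maps a state of the product form to a state of the product form. -/
theorem pf_gate {n : ℕ} (inp : Fin n ↪ Q) (g : TGate Q) (hg : g.Valid)
    (hoff : g.isRight = true → ∀ j, inp j ∉ g.support)
    (w : Q → Matrix Bool Bool ℂ) (hw : ∀ p, w p ∈ Matrix.unitaryGroup Bool ℂ)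
    (Φ : StateVec Q) :
    ∃ (w' : Q → Matrix Bool Bool ℂ) (Φ' : StateVec Q),
      (∀ p, w' p ∈ Matrix.unitaryGroup Bool ℂ) ∧ normSqSum Φ' = normSqSum Φ ∧
      ∀ x : Fin n → Bool,
        g.act (oneQubitLayer (fun p => if inTau inp p = true then
          colMat (w p) (Function.extend inp x (fun _ => false) p) else 1) Φ) =
        oneQubitLayer (fun p => if inTau inp p = true then
          colMat (w' p) (Function.extend inp x (fun _ => false) p) else 1) Φ' := by
  rcases g with ⟨p, u⟩ | ⟨c, t⟩
  · have hu : u ∈ Matrix.unitaryGroup Bool ℂ := hg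
    by_cases hp : inTau inp p = true
    · refine ⟨Function.update w p (u * w p), Φ, ?_, rfl, ?_⟩
      · intro r
        by_cases hr : r = p
        · subst hr
          rw [Function.update_self]
          exact mul_mem hu (hw r)
        · rw [Function.update_of_ne hr]
          exact hw r
      · intro x
        show oneQubitLayer (singleGate p u) _ = _
        rw [oneQubitLayer_comp]
        congr 1
        funext r
        by_cases hr : r = p
        · subst hr
          simp only [singleGate, if_true, hp, Function.update_self]
          exact pf_colMat_mul _ _ _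
        · simp only [singleGate, if_neg hr, one_mul, Function.update_of_ne hr]
    · refine ⟨w, oneQubitLayer (singleGate p u) Φ, hw,
        normSqSum_oneQubitLayer _ (pf_singleGate_mem p u hu) Φ, ?_⟩
      intro x
      show oneQubitLayer (singleGate p u) _ = _
      rw [oneQubitLayer_comm]
      intro r
      by_cases hr : r = p
      · right
        subst hr
        simp [hp]
      · left
        simp [singleGate, hr]
  · obtain ⟨_hne, ht⟩ : c.Nonempty ∧ t ∉ c := hg
    have hE : ∀ r ∈ insert t c, ¬ inTau inp r = true := by
      intro r hr hcon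
      obtain ⟨j, hj⟩ := of_decide_eq_true hcon
      exact hoff rfl j (hj ▸ hr)
    refine ⟨w, TGate.act (Sum.inr (c, t)) Φ, hw, ?_, ?_⟩
    · rw [toffoli_act_eq c t ht,
        normSqSum_oneQubitLayer _ (pf_singleGate_mem t _ hadamard_mem), normSqSum_czLayer,
        normSqSum_oneQubitLayer _ (pf_singleGate_mem t _ hadamard_mem)]
    · intro x
      rw [toffoli_act_eq c t ht, toffoli_act_eq c t ht]
      have h1 : ∀ ψ : StateVec Q, oneQubitLayer (singleGate t hadamard)
          (oneQubitLayer (fun p => if inTau inp p = true then
            colMat (w p) (Function.extend inp x (fun _ => false) p) else 1) ψ) =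
          oneQubitLayer (fun p => if inTau inp p = true then
            colMat (w p) (Function.extend inp x (fun _ => false) p) else 1)
            (oneQubitLayer (singleGate t hadamard) ψ) := by
        intro ψ
        apply oneQubitLayer_comm
        intro r
        by_cases hr : r = t
        · right
          subst hr
          exact if_neg (hE r (Finset.mem_insert_self _ _))
        · left
          simp [singleGate, hr]
      have h2 : ∀ ψ : StateVec Q, czLayer {insert t c}
          (oneQubitLayer (fun p => if inTau inp p = true then
            colMat (w p) (Function.extend inp x (fun _ => false) p) else 1) ψ) =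
          oneQubitLayer (fun p => if inTau inp p = true then
            colMat (w p) (Function.extend inp x (fun _ => false) p) else 1)
            (czLayer {insert t c} ψ) := by
        intro ψ
        symm
        apply oneQubitLayer_czLayer_comm
        intro S hS r hr
        rw [Finset.mem_singleton] at hS
        subst hS
        exact if_neg (hE r hr)
      rw [h1, h2, h1]

/-- Layer step. -/
theorem pf_layer {n : ℕ} (inp : Fin n ↪ Q) (l : List (TGate Q)) (hg : ∀ g ∈ l, g.Valid)
    (hoff : ∀ g ∈ l, g.isRight = true → ∀ j, inp j ∉ g.support) :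
    ∀ (w : Q → Matrix Bool Bool ℂ) (_hw : ∀ p, w p ∈ Matrix.unitaryGroup Bool ℂ)
      (Φ : StateVec Q),
    ∃ (w' : Q → Matrix Bool Bool ℂ) (Φ' : StateVec Q),
      (∀ p, w' p ∈ Matrix.unitaryGroup Bool ℂ) ∧ normSqSum Φ' = normSqSum Φ ∧
      ∀ x : Fin n → Bool,
        layerAct l (oneQubitLayer (fun p => if inTau inp p = true then
          colMat (w p) (Function.extend inp x (fun _ => false) p) else 1) Φ) =
        oneQubitLayer (fun p => if inTau inp p = true then
          colMat (w' p) (Function.extend inp x (fun _ => false) p) else 1) Φ' := by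
  induction l with
  | nil =>
    intro w hw Φ
    exact ⟨w, Φ, hw, rfl, fun x => rfl⟩
  | cons g r ih =>
    intro w hw Φ
    obtain ⟨w1, Φ1, hw1, hn1, h1⟩ :=
      pf_gate inp g (hg g List.mem_cons_self) (hoff g List.mem_cons_self) w hw Φ
    obtain ⟨w2, Φ2, hw2, hn2, h2⟩ :=
      ih (fun g' hg' => hg g' (List.mem_cons_of_mem _ hg'))
        (fun g' hg' => hoff g' (List.mem_cons_of_mem _ hg')) w1 hw1 Φ1
    refine ⟨w2, Φ2, hw2, hn2.trans hn1, fun x => ?_⟩
    show layerAct r (g.act _) = _
    rw [h1 x, h2 x]

/-- Circuit step. -/
theorem pf_circuit {n : ℕ} (inp : Fin n ↪ Q) (pre : List (List (TGate Q)))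
    (hv : ∀ l ∈ pre, LayerValid l)
    (hoff : ∀ l ∈ pre, ∀ g ∈ l, g.isRight = true → ∀ j, inp j ∉ g.support) :
    ∀ (w : Q → Matrix Bool Bool ℂ) (_hw : ∀ p, w p ∈ Matrix.unitaryGroup Bool ℂ)
      (Φ : StateVec Q),
    ∃ (w' : Q → Matrix Bool Bool ℂ) (Φ' : StateVec Q),
      (∀ p, w' p ∈ Matrix.unitaryGroup Bool ℂ) ∧ normSqSum Φ' = normSqSum Φ ∧
      ∀ x : Fin n → Bool,
        tRun pre (oneQubitLayer (fun p => if inTau inp p = true then
          colMat (w p) (Function.extend inp x (fun _ => false) p) else 1) Φ) =
        oneQubitLayer (fun p => if inTau inp p = true then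
          colMat (w' p) (Function.extend inp x (fun _ => false) p) else 1) Φ' := by
  induction pre with
  | nil =>
    intro w hw Φ
    exact ⟨w, Φ, hw, rfl, fun x => rfl⟩
  | cons l r ih =>
    intro w hw Φ
    obtain ⟨w1, Φ1, hw1, hn1, h1⟩ :=
      pf_layer inp l (hv l List.mem_cons_self).1 (hoff l List.mem_cons_self) w hw Φ
    obtain ⟨w2, Φ2, hw2, hn2, h2⟩ :=
      ih (fun l' hl' => hv l' (List.mem_cons_of_mem _ hl'))
        (fun l' hl' => hoff l' (List.mem_cons_of_mem _ hl')) w1 hw1 Φ1
    refine ⟨w2, Φ2, hw2, hn2.trans hn1, fun x => ?_⟩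
    show tRun r (layerAct l _) = _
    rw [h1 x, h2 x]

/-- The start state: the basis state of the input is of the product form. -/
theorem pf_start {n : ℕ} (inp : Fin n ↪ Q) (x : Fin n → Bool) :
    oneQubitLayer (fun p => if inTau inp p = true then
      colMat (1 : Matrix Bool Bool ℂ) (Function.extend inp x (fun _ => false) p) else 1)
      (basisState (fun _ => false)) = basisState (Function.extend inp x fun _ => false) := by
  funext z
  rw [oneQubitLayer_apply]
  rw [Finset.sum_eq_single (fun _ => false)]
  · rw [show basisState (fun _ => false) (fun _ : Q => false) = (1 : ℂ) from if_pos rfl, mul_one]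
    have hfac : ∀ p, (if inTau inp p = true then
        colMat (1 : Matrix Bool Bool ℂ) (Function.extend inp x (fun _ => false) p) else 1)
          (z p) false = if z p = Function.extend inp x (fun _ => false) p then (1 : ℂ) else 0 := by
      intro p
      by_cases hp : inTau inp p = true
      · rw [if_pos hp]
        simp [colMat, Matrix.one_apply]
      · rw [if_neg hp]
        have hx : Function.extend inp x (fun _ => false) p = false := by
          apply Function.extend_apply'
          rintro ⟨j, hj⟩
          exact hp (decide_eq_true ⟨j, hj⟩)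
        rw [hx, Matrix.one_apply]
    rw [Finset.prod_congr rfl (fun p _ => hfac p), Finset.prod_ite_zero]
    simp [basisState, funext_iff]
  · intro v _ hv
    simp [basisState, hv]
  · intro h
    exact absurd (Finset.mem_univ _) h

/-- After layers whose generalized Toffoli gates do not touch the input qubits, the state is a
product of one-qubit states of the input qubits (the columns `x j` of unitaries `w`) and a
vector `Φ` of norm at most one that does not depend on the input `x`. -/
theorem tRun_pre_form {n : ℕ} (inp : Fin n ↪ Q) (pre : List (List (TGate Q)))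
    (hv : ∀ l ∈ pre, LayerValid l)
    (hoff : ∀ l ∈ pre, ∀ g ∈ l, g.isRight = true → ∀ j, inp j ∉ g.support) :
    ∃ (w : Q → Matrix Bool Bool ℂ) (Φ : StateVec Q),
      (∀ p, w p ∈ Matrix.unitaryGroup Bool ℂ) ∧ normSqSum Φ ≤ 1 ∧
      ∀ x : Fin n → Bool, tRun pre (basisState (Function.extend inp x fun _ => false)) =
        oneQubitLayer (fun p => if inTau inp p = true then
          colMat (w p) (Function.extend inp x (fun _ => false) p) else 1) Φ := by
  obtain ⟨w, Φ, hw, hn, h⟩ := pf_circuit inp pre hv hoff (fun _ => 1) (fun _ => one_mem _)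
    (basisState (fun _ => false))
  refine ⟨w, Φ, hw, ?_, fun x => ?_⟩
  · rw [hn, normSqSum_basisState]
  · rw [← pf_start inp x]
    exact h x

end Vale.Agent.Lib.P368
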