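import Vale.Agent.Lib.P368.Adv.Defs

/-!
# P368, ancilla preprocessing: moving the matrices on a set `C` disjoint from the gates
-/

namespace Vale.Agent.Lib.P368

open Finset

variable {Q : Type} [Fintype Q] [DecidableEq Q]

/-- The abstract form: the families `a`, `bb` act trivially on the gates of `L`, and the
matrices of the two sides factor through them. -/
theorem pt_core (a bb e' O' OC g ae be O : Q → Matrix Bool Bool ℂ) (L : Finset (Finset Q))
    (ha : ∀ S ∈ L, ∀ p ∈ S, a p = 1) (hb : ∀ S ∈ L, ∀ p ∈ S, bb p = 1)
    (hg : ∀ S ∈ L, ∀ p ∈ S, g p = 1)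
    (hae : ∀ p, ae p = a p * e' p) (hbe : ∀ p, be p = bb p * e' p)
    (hO : ∀ p, O p = O' p * OC p)
    (hcomb : ∀ p, (a p).conjTranspose * (O' p * (OC p * bb p)) = O' p * g p)
    (hge : ∀ p, g p = 1 ∨ e' p = 1) (φ ψ : StateVec Q) :
    ip (czLayer L (oneQubitLayer ae φ)) (oneQubitLayer O (czLayer L (oneQubitLayer be ψ))) =
      ip (czLayer L (oneQubitLayer e' φ))
        (oneQubitLayer O' (czLayer L (oneQubitLayer e' (oneQubitLayer g ψ)))) := by
  obtain rfl : ae = fun p => a p * e' p := funext hae
  obtain rfl : be = fun p => bb p * e' p := funext hbe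
  obtain rfl : O = fun p => O' p * OC p := funext hO
  have hadj : ∀ X Z : StateVec Q, ip (oneQubitLayer a X) Z
      = ip X (oneQubitLayer (fun p => (a p).conjTranspose) Z) := by
    intro X Z
    rw [ip_adj (fun p => (a p).conjTranspose) X Z]
    simp only [Matrix.conjTranspose_conjTranspose]
  have hcol : ∀ Y : StateVec Q, oneQubitLayer (fun p => (a p).conjTranspose)
      (oneQubitLayer O' (oneQubitLayer OC (oneQubitLayer bb Y)))
        = oneQubitLayer O' (oneQubitLayer g Y) := by
    intro Y
    rw [oneQubitLayer_comp OC bb, oneQubitLayer_comp O',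
      oneQubitLayer_comp (fun p => (a p).conjTranspose), oneQubitLayer_comp O' g]
    congr 1
    funext p
    exact hcomb p
  rw [← oneQubitLayer_comp a e' φ, ← oneQubitLayer_comp bb e' ψ, ← oneQubitLayer_comp O' OC,
    ← oneQubitLayer_czLayer_comm a L ha, ← oneQubitLayer_czLayer_comm bb L hb, hadj, hcol,
    oneQubitLayer_czLayer_comm g L hg, oneQubitLayer_comm g e' hge]

/-- The pairing through a layer `L` of multi-controlled `Z` gates whose gates are disjoint
from `C`: the one-qubit matrices on the qubits of `C` (on both sides, and of the product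
operator `O`) can be collected into one layer acting on the right vector. -/
theorem peel_term (e O A B : Q → Matrix Bool Bool ℂ) (L : Finset (Finset Q)) (C : Finset Q)
    (hdisj : ∀ S ∈ L, Disjoint S C) (φ ψ : StateVec Q) :
    ip (czLayer L (oneQubitLayer (fun p => if p ∈ C then A p * e p else e p) φ))
        (oneQubitLayer O (czLayer L
          (oneQubitLayer (fun p => if p ∈ C then B p * e p else e p) ψ))) =
      ip (czLayer L (oneQubitLayer (fun p => if p ∈ C then 1 else e p) φ))
        (oneQubitLayer (fun p => if p ∈ C then 1 else O p)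
          (czLayer L (oneQubitLayer (fun p => if p ∈ C then 1 else e p)
            (oneQubitLayer (fun p => if p ∈ C then
              (e p).conjTranspose * (A p).conjTranspose * O p * B p * e p else 1) ψ)))) := by
  have hmemC : ∀ S ∈ L, ∀ p ∈ S, p ∉ C :=
    fun S hS p hp => Finset.disjoint_left.mp (hdisj S hS) hp
  refine pt_core (fun p => if p ∈ C then A p * e p else 1)
    (fun p => if p ∈ C then B p * e p else 1) (fun p => if p ∈ C then 1 else e p)
    (fun p => if p ∈ C then 1 else O p) (fun p => if p ∈ C then O p else 1)
    (fun p => if p ∈ C then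
      (e p).conjTranspose * (A p).conjTranspose * O p * B p * e p else 1)
    (fun p => if p ∈ C then A p * e p else e p) (fun p => if p ∈ C then B p * e p else e p)
    O L ?_ ?_ ?_ ?_ ?_ ?_ ?_ ?_ φ ψ
  · intro S hS p hp
    exact if_neg (hmemC S hS p hp)
  · intro S hS p hp
    exact if_neg (hmemC S hS p hp)
  · intro S hS p hp
    exact if_neg (hmemC S hS p hp)
  · intro p
    by_cases hp : p ∈ C
    · simp only [if_pos hp, mul_one]
    · simp only [if_neg hp, one_mul]
  · intro p
    by_cases hp : p ∈ C
    · simp only [if_pos hp, mul_one]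
    · simp only [if_neg hp, one_mul]
  · intro p
    by_cases hp : p ∈ C
    · simp only [if_pos hp, one_mul]
    · simp only [if_neg hp, mul_one]
  · intro p
    by_cases hp : p ∈ C
    · simp only [if_pos hp, one_mul, Matrix.conjTranspose_mul, Matrix.mul_assoc]
    · simp only [if_neg hp, mul_one, Matrix.conjTranspose_one, one_mul]
  · intro p
    by_cases hp : p ∈ C
    · right
      exact if_pos hp
    · left
      exact if_neg hp

end Vale.Agent.Lib.P368
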