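import Vale.Agent.Lib.P368.Adv.Fubini
import Vale.Agent.Lib.P368.Adv.PeelTerm

/-!
# P368, ancilla preprocessing: removing one gate of the layer
-/

namespace Vale.Agent.Lib.P368

open Finset

variable {Q : Type} [Fintype Q] [DecidableEq Q]

theorem pe_layer_add (u : Q → Matrix Bool Bool ℂ) (a b : StateVec Q) :
    oneQubitLayer u (a + b) = oneQubitLayer u a + oneQubitLayer u b := by
  funext z
  simp only [oneQubitLayer_apply, Pi.add_apply, mul_add, Finset.sum_add_distrib]

theorem pe_layer_smul (u : Q → Matrix Bool Bool ℂ) (t : ℂ) (a : StateVec Q) :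
    oneQubitLayer u (t • a) = t • oneQubitLayer u a := by
  funext z
  simp only [oneQubitLayer_apply, Pi.smul_apply, smul_eq_mul, Finset.mul_sum]
  refine Finset.sum_congr rfl fun w _ => ?_
  ring

theorem pe_cz_add (L : Finset (Finset Q)) (a b : StateVec Q) :
    czLayer L (a + b) = czLayer L a + czLayer L b := by
  funext z
  simp only [czLayer, Pi.add_apply, mul_add]

theorem pe_cz_smul (L : Finset (Finset Q)) (t : ℂ) (a : StateVec Q) :
    czLayer L (t • a) = t • czLayer L a := by
  funext z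
  simp only [czLayer, Pi.smul_apply, smul_eq_mul]
  ring

theorem pe_ip_add (h a b : StateVec Q) : ip h (a + b) = ip h a + ip h b := by
  simp only [ip, Pi.add_apply, mul_add, Finset.sum_add_distrib]

theorem pe_ip_smul (h : StateVec Q) (t : ℂ) (a : StateVec Q) : ip h (t • a) = t * ip h a := by
  simp only [ip, Pi.smul_apply, smul_eq_mul, Finset.mul_sum]
  refine Finset.sum_congr rfl fun z _ => ?_
  ring

/-- The pairing through the layer `L` once the matrices on the qubits of `C` are removed. -/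
noncomputable def pe_Phi (ε : Q → Bool → Matrix Bool Bool ℂ) (L : Finset (Finset Q))
    (O : Q → Matrix Bool Bool ℂ) (C : Finset Q) (φ : StateVec Q) (y : Q → Bool)
    (χ : StateVec Q) : ℂ :=
  ip (czLayer L (oneQubitLayer (fun p => if p ∈ C then 1 else ε p (y p)) φ))
    (oneQubitLayer (fun p => if p ∈ C then 1 else O p)
      (czLayer L (oneQubitLayer (fun p => if p ∈ C then 1 else ε p (y p)) χ)))

theorem pe_Phi_add (ε : Q → Bool → Matrix Bool Bool ℂ) (L : Finset (Finset Q))
    (O : Q → Matrix Bool Bool ℂ) (C : Finset Q) (φ : StateVec Q) (y : Q → Bool)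
    (a b : StateVec Q) :
    pe_Phi ε L O C φ y (a + b) = pe_Phi ε L O C φ y a + pe_Phi ε L O C φ y b := by
  unfold pe_Phi
  rw [pe_layer_add, pe_cz_add, pe_layer_add, pe_ip_add]

theorem pe_Phi_smul (ε : Q → Bool → Matrix Bool Bool ℂ) (L : Finset (Finset Q))
    (O : Q → Matrix Bool Bool ℂ) (C : Finset Q) (φ : StateVec Q) (y : Q → Bool)
    (t : ℂ) (a : StateVec Q) :
    pe_Phi ε L O C φ y (t • a) = t * pe_Phi ε L O C φ y a := by
  unfold pe_Phi
  rw [pe_layer_smul, pe_cz_smul, pe_layer_smul, pe_ip_smul]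

theorem pe_Phi_loc (ε : Q → Bool → Matrix Bool Bool ℂ) (L : Finset (Finset Q))
    (O : Q → Matrix Bool Bool ℂ) (C : Finset Q) (φ : StateVec Q) (y y' : Q → Bool)
    (h : ∀ p, p ∉ C → y p = y' p) : pe_Phi ε L O C φ y = pe_Phi ε L O C φ y' := by
  have he : (fun p => if p ∈ C then (1 : Matrix Bool Bool ℂ) else ε p (y p)) =
      fun p => if p ∈ C then 1 else ε p (y' p) := by
    funext p
    by_cases hp : p ∈ C
    · simp [hp]
    · simp [hp, h p hp]
  funext χ
  unfold pe_Phi
  rw [he]

/-- The value of `pe_Phi` on the operator of the gate. -/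
theorem pe_Phi_gOp (τ : Q → Bool) (ε : Q → Bool → Matrix Bool Bool ℂ) (L : Finset (Finset Q))
    (O : Q → Matrix Bool Bool ℂ) (C : Finset Q) (φ ψ : StateVec Q) (y : Q → Bool) :
    pe_Phi ε L O C φ y (gOp τ ε O C ψ) =
      pe_Phi ε L O C φ y
          (oneQubitLayer (fun p => if p ∈ C then tMat (τ p) (ε p) (O p) else 1) ψ)
        - 2 * pe_Phi ε L O C φ y
          (oneQubitLayer (fun p => if p ∈ C then tMat (τ p) (ε p) (projOne * O p) else 1) ψ)
        - 2 * pe_Phi ε L O C φ y
          (oneQubitLayer (fun p => if p ∈ C then tMat (τ p) (ε p) (O p * projOne) else 1) ψ)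
        + 4 * pe_Phi ε L O C φ y
          (oneQubitLayer
            (fun p => if p ∈ C then tMat (τ p) (ε p) (projOne * O p * projOne) else 1) ψ) := by
  have hg : gOp τ ε O C ψ =
      oneQubitLayer (fun p => if p ∈ C then tMat (τ p) (ε p) (O p) else 1) ψ
        + (-2 : ℂ) • oneQubitLayer
            (fun p => if p ∈ C then tMat (τ p) (ε p) (projOne * O p) else 1) ψ
        + (-2 : ℂ) • oneQubitLayer
            (fun p => if p ∈ C then tMat (τ p) (ε p) (O p * projOne) else 1) ψ
        + (4 : ℂ) • oneQubitLayer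
            (fun p => if p ∈ C then tMat (τ p) (ε p) (projOne * O p * projOne) else 1) ψ := by
    funext z
    simp only [gOp, Pi.add_apply, Pi.smul_apply, smul_eq_mul]
    ring
  rw [hg, pe_Phi_add, pe_Phi_add, pe_Phi_add, pe_Phi_smul, pe_Phi_smul, pe_Phi_smul]
  ring

/-- One term of the expansion of the gate `C`: matrices `A` and `B` inserted on the qubits of
`C` on the two sides. -/
noncomputable def pe_T (ε : Q → Bool → Matrix Bool Bool ℂ) (L : Finset (Finset Q))
    (O : Q → Matrix Bool Bool ℂ) (C : Finset Q) (φ ψ : StateVec Q) (y : Q → Bool)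
    (A B : Matrix Bool Bool ℂ) : ℂ :=
  ip (czLayer L (oneQubitLayer (fun p => if p ∈ C then A * ε p (y p) else ε p (y p)) φ))
    (oneQubitLayer O
      (czLayer L (oneQubitLayer (fun p => if p ∈ C then B * ε p (y p) else ε p (y p)) ψ)))

/-- Expansion of the gate `C` in front of a layer of one-qubit matrices. -/
theorem pe_cz_expand (ε : Q → Bool → Matrix Bool Bool ℂ) (L : Finset (Finset Q))
    (C : Finset Q) (hC : C ∉ L) (y : Q → Bool) (χ : StateVec Q) :
    czLayer (insert C L) (oneQubitLayer (fun p => ε p (y p)) χ) = fun z =>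
      czLayer L (oneQubitLayer (fun p => if p ∈ C then 1 * ε p (y p) else ε p (y p)) χ) z
        - 2 * czLayer L
          (oneQubitLayer (fun p => if p ∈ C then projOne * ε p (y p) else ε p (y p)) χ) z := by
  have h1 : (fun p => gp_P C p * ε p (y p)) =
      fun p => if p ∈ C then projOne * ε p (y p) else ε p (y p) := by
    funext p
    unfold gp_P
    by_cases hp : p ∈ C
    · simp [hp]
    · simp [hp]
  have h2 : (fun p => if p ∈ C then 1 * ε p (y p) else ε p (y p)) = fun p => ε p (y p) := by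
    funext p
    by_cases hp : p ∈ C
    · simp [hp]
    · simp [hp]
  rw [czLayer_insert C L hC, gp_cz_eq, oneQubitLayer_comp, h1, h2]
  funext z
  unfold czLayer
  ring

theorem pe_term_expand (ε : Q → Bool → Matrix Bool Bool ℂ) (L : Finset (Finset Q))
    (O : Q → Matrix Bool Bool ℂ) (C : Finset Q) (hC : C ∉ L) (φ ψ : StateVec Q)
    (y : Q → Bool) :
    ip (czLayer (insert C L) (oneQubitLayer (fun p => ε p (y p)) φ))
        (oneQubitLayer O (czLayer (insert C L) (oneQubitLayer (fun p => ε p (y p)) ψ))) =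
      pe_T ε L O C φ ψ y 1 1 - 2 * pe_T ε L O C φ ψ y 1 projOne
        - 2 * pe_T ε L O C φ ψ y projOne 1 + 4 * pe_T ε L O C φ ψ y projOne projOne := by
  rw [pe_cz_expand ε L C hC y φ, pe_cz_expand ε L C hC y ψ, gp_layer_sub, gp_ip_sub_left,
    gp_ip_sub_right, gp_ip_sub_right]
  unfold pe_T
  ring

/-- One term of the expansion, with the matrices on `C` collected on the right vector. -/
theorem pe_T_eq (ε : Q → Bool → Matrix Bool Bool ℂ) (L : Finset (Finset Q))
    (O : Q → Matrix Bool Bool ℂ) (C : Finset Q) (hdisj : ∀ S ∈ L, Disjoint S C)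
    (φ ψ : StateVec Q) (y : Q → Bool) (A B : Matrix Bool Bool ℂ) :
    pe_T ε L O C φ ψ y A B =
      pe_Phi ε L O C φ y (oneQubitLayer (fun p => if p ∈ C then
        (ε p (y p)).conjTranspose * A.conjTranspose * O p * B * ε p (y p) else 1) ψ) :=
  peel_term (fun p => ε p (y p)) O (fun _ => A) (fun _ => B) L C hdisj φ ψ

/-- The sum over the inputs of one term of the expansion. -/
theorem pe_sum_term (τ : Q → Bool) (ε : Q → Bool → Matrix Bool Bool ℂ)
    (L : Finset (Finset Q)) (O : Q → Matrix Bool Bool ℂ) (C : Finset Q)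
    (hdisj : ∀ S ∈ L, Disjoint S C) (φ ψ : StateVec Q) (A B : Matrix Bool Bool ℂ) :
    ∑ y : Q → Bool, ((wprod τ y : ℝ) : ℂ) * pe_T ε L O C φ ψ y A B =
      ∑ y : Q → Bool, ((wprod (fun p => if p ∈ C then false else τ p) y : ℝ) : ℂ) *
        pe_Phi ε L O C φ y (oneQubitLayer
          (fun p => if p ∈ C then tMat (τ p) (ε p) (A.conjTranspose * O p * B) else 1) ψ) := by
  have key := sum_wprod_layer τ C
    (fun p b => (ε p b).conjTranspose * A.conjTranspose * O p * B * ε p b)
    (pe_Phi ε L O C φ) (pe_Phi_add ε L O C φ) (pe_Phi_smul ε L O C φ) (pe_Phi_loc ε L O C φ) ψ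
  have hmat : ∀ p, ∑ b : Bool, ((wt (τ p) b : ℝ) : ℂ) •
      ((ε p b).conjTranspose * A.conjTranspose * O p * B * ε p b) =
      tMat (τ p) (ε p) (A.conjTranspose * O p * B) := by
    intro p
    unfold tMat
    simp only [Matrix.mul_assoc]
  simp only [hmat] at key
  rw [← key]
  refine Finset.sum_congr rfl fun y _ => ?_
  rw [pe_T_eq ε L O C hdisj φ ψ y A B]

theorem pe_sum_comb {ι : Type} [Fintype ι] (w a b c d : ι → ℂ) :
    ∑ y, w y * (a y - 2 * b y - 2 * c y + 4 * d y) =
      ∑ y, w y * a y - 2 * ∑ y, w y * b y - 2 * ∑ y, w y * c y + 4 * ∑ y, w y * d y := by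
  rw [Finset.mul_sum, Finset.mul_sum, Finset.mul_sum, ← Finset.sum_sub_distrib,
    ← Finset.sum_sub_distrib, ← Finset.sum_add_distrib]
  refine Finset.sum_congr rfl fun y _ => ?_
  ring

/-- One gate `C` of the layer, disjoint from the others, can be removed: its qubits lose their
flags, their matrices and their factor of `O`, and the right vector is acted on by the
operator `gOp` of the gate. -/
theorem sForm_peel (τ : Q → Bool) (ε : Q → Bool → Matrix Bool Bool ℂ) (L : Finset (Finset Q))
    (O : Q → Matrix Bool Bool ℂ) (C : Finset Q) (hC : C ∉ L) (hdisj : ∀ S ∈ L, Disjoint S C)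
    (φ ψ : StateVec Q) :
    sForm τ ε (insert C L) O φ ψ =
      sForm (fun p => if p ∈ C then false else τ p) (fun p b => if p ∈ C then 1 else ε p b) L
        (fun p => if p ∈ C then 1 else O p) φ (gOp τ ε O C ψ) := by
  have hR : sForm (fun p => if p ∈ C then false else τ p)
      (fun p b => if p ∈ C then 1 else ε p b) L (fun p => if p ∈ C then 1 else O p) φ
      (gOp τ ε O C ψ) =
      ∑ y : Q → Bool, ((wprod (fun p => if p ∈ C then false else τ p) y : ℝ) : ℂ) *
        pe_Phi ε L O C φ y (gOp τ ε O C ψ) := rfl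
  have hL : sForm τ ε (insert C L) O φ ψ =
      ∑ y : Q → Bool, ((wprod τ y : ℝ) : ℂ) *
        (pe_T ε L O C φ ψ y 1 1 - 2 * pe_T ε L O C φ ψ y 1 projOne
          - 2 * pe_T ε L O C φ ψ y projOne 1 + 4 * pe_T ε L O C φ ψ y projOne projOne) := by
    unfold sForm
    refine Finset.sum_congr rfl fun y _ => ?_
    rw [pe_term_expand ε L O C hC φ ψ y]
  rw [hL, hR, pe_sum_comb, pe_sum_term τ ε L O C hdisj φ ψ 1 1,
    pe_sum_term τ ε L O C hdisj φ ψ 1 projOne, pe_sum_term τ ε L O C hdisj φ ψ projOne 1,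
    pe_sum_term τ ε L O C hdisj φ ψ projOne projOne]
  simp only [pe_Phi_gOp, pe_sum_comb]
  simp only [Matrix.conjTranspose_one, gp_projOne_conjTranspose, one_mul, mul_one]
  ring

end Vale.Agent.Lib.P368
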