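import Vale.Agent.Lib.P368.Adv.Defs

/-!
# P368, ancilla preprocessing: Cauchy-Schwarz and polarization
-/

namespace Vale.Agent.Lib.P368

open Finset

variable {Q : Type} [Fintype Q] [DecidableEq Q]

/-- Cauchy-Schwarz for the pairing. -/
theorem norm_ip_le (φ ψ : StateVec Q) :
    ‖ip φ ψ‖ ≤ Real.sqrt (normSqSum φ) * Real.sqrt (normSqSum ψ) := by
  have h1 : ‖ip φ ψ‖ ≤ ∑ z, ‖φ z‖ * ‖ψ z‖ := by
    unfold ip
    refine (norm_sum_le _ _).trans (le_of_eq ?_)
    refine Finset.sum_congr rfl (fun z _ => ?_)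
    rw [norm_mul, RCLike.norm_conj]
  have h2 := Real.sum_mul_le_sqrt_mul_sqrt (Finset.univ : Finset (Q → Bool))
    (fun z => ‖φ z‖) (fun z => ‖ψ z‖)
  have e1 : normSqSum φ = ∑ z, ‖φ z‖ ^ 2 := by
    unfold normSqSum
    exact Finset.sum_congr rfl (fun z _ => Complex.normSq_eq_norm_sq _)
  have e2 : normSqSum ψ = ∑ z, ‖ψ z‖ ^ 2 := by
    unfold normSqSum
    exact Finset.sum_congr rfl (fun z _ => Complex.normSq_eq_norm_sq _)
  rw [e1, e2]
  exact h1.trans h2

private lemma po_ip_add_left (a b c : StateVec Q) : ip (a + b) c = ip a c + ip b c := by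
  unfold ip
  simp only [Pi.add_apply, map_add, add_mul, Finset.sum_add_distrib]

private lemma po_ip_add_right (a b c : StateVec Q) : ip a (b + c) = ip a b + ip a c := by
  unfold ip
  simp only [Pi.add_apply, mul_add, Finset.sum_add_distrib]

private lemma po_ip_smul_left (t : ℂ) (a b : StateVec Q) :
    ip (t • a) b = (starRingEnd ℂ) t * ip a b := by
  unfold ip
  rw [Finset.mul_sum]
  refine Finset.sum_congr rfl (fun z _ => ?_)
  simp only [Pi.smul_apply, smul_eq_mul, map_mul]
  ring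

private lemma po_ip_smul_right (t : ℂ) (a b : StateVec Q) : ip a (t • b) = t * ip a b := by
  unfold ip
  rw [Finset.mul_sum]
  refine Finset.sum_congr rfl (fun z _ => ?_)
  simp only [Pi.smul_apply, smul_eq_mul]
  ring

private lemma po_ip_self (a : StateVec Q) : ip a a = ((normSqSum a : ℝ) : ℂ) := by
  unfold ip
  exact (normSqSum_cast a).symm

private lemma po_nsq_par (a b : StateVec Q) :
    normSqSum (a + b) + normSqSum (a + (-1 : ℂ) • b) = 2 * normSqSum a + 2 * normSqSum b := by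
  unfold normSqSum
  rw [← Finset.sum_add_distrib, Finset.mul_sum, Finset.mul_sum, ← Finset.sum_add_distrib]
  refine Finset.sum_congr rfl (fun z _ => ?_)
  simp only [Pi.add_apply, Pi.smul_apply, smul_eq_mul, Complex.normSq_apply, Complex.add_re,
    Complex.add_im, Complex.mul_re, Complex.mul_im, Complex.neg_re, Complex.neg_im,
    Complex.one_re, Complex.one_im]
  ring

private lemma po_nsq_smul (s : ℝ) (a : StateVec Q) :
    normSqSum ((s : ℂ) • a) = s ^ 2 * normSqSum a := by
  unfold normSqSum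
  rw [Finset.mul_sum]
  refine Finset.sum_congr rfl (fun z _ => ?_)
  simp only [Pi.smul_apply, smul_eq_mul, Complex.normSq_mul, Complex.normSq_ofReal]
  ring

/-- An additive, homogeneous, self-adjoint map whose quadratic form is bounded by `M` times
the squared norm has norm at most `M`. -/
theorem polar_bound (G : StateVec Q → StateVec Q) (M : ℝ) (hM : 0 ≤ M)
    (hadd : ∀ a b : StateVec Q, G (a + b) = G a + G b)
    (hsmul : ∀ (t : ℂ) (a : StateVec Q), G (t • a) = t • G a)
    (hherm : ∀ φ ψ : StateVec Q, ip φ (G ψ) = (starRingEnd ℂ) (ip ψ (G φ)))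
    (hquad : ∀ ψ : StateVec Q, |(ip ψ (G ψ)).re| ≤ M * normSqSum ψ) (ψ : StateVec Q) :
    normSqSum (G ψ) ≤ M ^ 2 * normSqSum ψ := by
  obtain ⟨χ, hχ⟩ : ∃ χ : StateVec Q, G ψ = χ := ⟨_, rfl⟩
  rw [hχ]
  have claim : ∀ s : ℝ, 2 * s * normSqSum χ ≤ M * (s ^ 2 * normSqSum χ + normSqSum ψ) := by
    intro s
    obtain ⟨a, ha⟩ : ∃ a : StateVec Q, a = (s : ℂ) • χ := ⟨_, rfl⟩
    have hGP : G (a + ψ) = G a + χ := by rw [hadd, hχ]
    have hGD : G (a + (-1 : ℂ) • ψ) = G a + (-1 : ℂ) • χ := by rw [hadd, hsmul, hχ]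
    have hP := hquad (a + ψ)
    have hD := hquad (a + (-1 : ℂ) • ψ)
    rw [hGP] at hP
    rw [hGD] at hD
    have eP : ip (a + ψ) (G a + χ) = ip a (G a) + ip a χ + ip ψ (G a) + ip ψ χ := by
      rw [po_ip_add_left, po_ip_add_right, po_ip_add_right]
      ring
    have eD : ip (a + (-1 : ℂ) • ψ) (G a + (-1 : ℂ) • χ)
        = ip a (G a) - ip a χ - ip ψ (G a) + ip ψ χ := by
      simp only [po_ip_add_left, po_ip_add_right, po_ip_smul_left, po_ip_smul_right, map_neg,
        map_one]
      ring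
    have h1 : ip ψ (G a) = (starRingEnd ℂ) (ip a χ) := by
      rw [← hχ]
      exact hherm ψ a
    have h2 : ip a χ = ((s * normSqSum χ : ℝ) : ℂ) := by
      rw [ha, po_ip_smul_left, po_ip_self, Complex.conj_ofReal]
      push_cast
      ring
    have hre : (ip (a + ψ) (G a + χ)).re - (ip (a + (-1 : ℂ) • ψ) (G a + (-1 : ℂ) • χ)).re
        = 4 * (s * normSqSum χ) := by
      rw [eP, eD, h1, h2]
      simp only [Complex.add_re, Complex.sub_re, Complex.conj_re, Complex.ofReal_re]
      ring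
    have hpar : normSqSum (a + ψ) + normSqSum (a + (-1 : ℂ) • ψ)
        = 2 * (s ^ 2 * normSqSum χ) + 2 * normSqSum ψ := by
      rw [po_nsq_par, ha, po_nsq_smul]
    have hP' := (abs_le.1 hP).2
    have hD' := (abs_le.1 hD).1
    have hM2 : M * (normSqSum (a + ψ) + normSqSum (a + (-1 : ℂ) • ψ))
        = M * (2 * (s ^ 2 * normSqSum χ) + 2 * normSqSum ψ) := by rw [hpar]
    linarith
  rcases eq_or_lt_of_le hM with h0 | hpos
  · have h := claim 1
    rw [← h0] at h
    have hX0 : normSqSum χ ≤ 0 := by linarith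
    have e : (0:ℝ) ^ 2 * normSqSum ψ = 0 := by ring
    rw [← h0, e]
    exact hX0
  · have h := claim (1 / M)
    have e : M * ((1 / M) ^ 2 * normSqSum χ + normSqSum ψ)
        = normSqSum χ / M + M * normSqSum ψ := by
      field_simp
    have e2 : 2 * (1 / M) * normSqSum χ = normSqSum χ / M + normSqSum χ / M := by ring
    rw [e, e2] at h
    have h3 : normSqSum χ / M ≤ M * normSqSum ψ := by linarith
    rw [div_le_iff₀ hpos] at h3
    calc normSqSum χ ≤ M * normSqSum ψ * M := h3
      _ = M ^ 2 * normSqSum ψ := by ring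

end Vale.Agent.Lib.P368
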