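import Vale.Agent.Lib.P368.Adv.Quad
import Vale.Agent.Lib.P368.Adv.Herm
import Vale.Agent.Lib.P368.Adv.Polar

/-!
# P368, ancilla preprocessing: the operator of a gate with `k` flagged qubits has norm at most
`2^(k-1)`
-/

namespace Vale.Agent.Lib.P368

open Finset

variable {Q : Type} [Fintype Q] [DecidableEq Q]

theorem gOp_norm_pos (τ : Q → Bool) (ε : Q → Bool → Matrix Bool Bool ℂ)
    (O : Q → Matrix Bool Bool ℂ) (C : Finset Q) (hadm : Adm τ ε) (hO : ∀ p, IsPos (O p))
    (ψ : StateVec Q) :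
    normSqSum (gOp τ ε O C ψ) ≤
      (2 ^ ((C.filter fun p => τ p = true).card - 1)) ^ 2 * normSqSum ψ := by
  have hpos : (0 : ℝ) ≤ 2 ^ ((C.filter fun p => τ p = true).card - 1) := by positivity
  exact polar_bound (gOp τ ε O C) _ hpos (gOp_add τ ε O C) (gOp_smul τ ε O C)
    (gOp_herm τ ε O C (fun p => isPos_conjTranspose (O p) (hO p)))
    (gOp_quad τ ε O C hadm hO) ψ

end Vale.Agent.Lib.P368
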