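import Vale.Agent.Lib.P368.Adv.Defs

/-!
# P368, ancilla preprocessing: elementary facts on the one-qubit matrices
-/

namespace Vale.Agent.Lib.P368

open Finset

theorem isContr_colMat (u : Matrix Bool Bool ℂ) (hu : u ∈ Matrix.unitaryGroup Bool ℂ)
    (b : Bool) : IsContr (colMat u b) := by
  intro a b'
  have e1 : colMat u b false false * a + colMat u b false true * b' = u false b * a := by
    simp [colMat]
  have e2 : colMat u b true false * a + colMat u b true true * b' = u true b * a := by
    simp [colMat]
  rw [e1, e2, Complex.normSq_mul, Complex.normSq_mul]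
  have h := unitary_col u hu b
  rw [Fintype.sum_bool] at h
  have h2 : Complex.normSq (u false b) * Complex.normSq a
      + Complex.normSq (u true b) * Complex.normSq a = Complex.normSq a := by
    rw [← add_mul, add_comm, h, one_mul]
  rw [h2]
  linarith [Complex.normSq_nonneg b']

theorem colMat_mul (u w : Matrix Bool Bool ℂ) (b : Bool) : u * colMat w b = colMat (u * w) b := by
  ext i j
  simp only [Matrix.mul_apply, Fintype.sum_bool, colMat]
  split_ifs <;> simp

theorem isContr_of_isPos (O : Matrix Bool Bool ℂ) (hO : IsPos O) : IsContr O := by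
  obtain ⟨m, hm, rfl⟩ := hO
  exact isContr_mul _ _ (isContr_conjTranspose m hm) hm

theorem isPos_conjTranspose (O : Matrix Bool Bool ℂ) (hO : IsPos O) : O.conjTranspose = O := by
  obtain ⟨m, _, rfl⟩ := hO
  rw [Matrix.conjTranspose_mul, Matrix.conjTranspose_conjTranspose]

theorem isPos_one : IsPos (1 : Matrix Bool Bool ℂ) :=
  ⟨1, isContr_one, by simp⟩

theorem isPos_projOne_mul (O : Matrix Bool Bool ℂ) (hO : IsPos O) :
    IsPos (projOne * O * projOne) := by
  obtain ⟨m, hm, rfl⟩ := hO
  refine ⟨m * projOne, isContr_mul m projOne hm isContr_projOne, ?_⟩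
  rw [Matrix.conjTranspose_mul, gp_projOne_conjTranspose]
  simp only [Matrix.mul_assoc]

theorem isContr_tMat_false (e : Bool → Matrix Bool Bool ℂ) (X : Matrix Bool Bool ℂ)
    (he : IsContr (e false)) (hX : IsContr X) : IsContr (tMat false e X) := by
  have h : tMat false e X = (e false).conjTranspose * X * e false := by
    unfold tMat
    rw [Fintype.sum_bool]
    simp [wt]
  rw [h]
  exact isContr_mul _ _ (isContr_mul _ _ (isContr_conjTranspose _ he) hX) he

end Vale.Agent.Lib.P368
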