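import Vale.Agent.Lib.P368.Adv.Peel
import Vale.Agent.Lib.P368.Adv.TMat

/-!
# P368, ancilla preprocessing: the quadratic form of the operator of a gate
-/

namespace Vale.Agent.Lib.P368

open Finset

variable {Q : Type} [Fintype Q] [DecidableEq Q]

/-- Two families of matrices that agree on `C` give the same family after being replaced by
`1` outside `C`. -/
theorem qu_fam_congr (C : Finset Q) (F G : Q → Matrix Bool Bool ℂ) (h : ∀ p ∈ C, F p = G p) :
    (fun p => if p ∈ C then F p else (1 : Matrix Bool Bool ℂ)) =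
      fun p => if p ∈ C then G p else 1 := by
  funext p
  by_cases hp : p ∈ C
  · rw [if_pos hp, if_pos hp, h p hp]
  · rw [if_neg hp, if_neg hp]

/-- The operator of the gate `C` depends only on the data on `C`. -/
theorem qu_gOp_congr (τ τ' : Q → Bool) (ε ε' : Q → Bool → Matrix Bool Bool ℂ)
    (O O' : Q → Matrix Bool Bool ℂ) (C : Finset Q) (hτ : ∀ p ∈ C, τ' p = τ p)
    (hε : ∀ p ∈ C, ε' p = ε p) (hO : ∀ p ∈ C, O' p = O p) (ψ : StateVec Q) :
    gOp τ' ε' O' C ψ = gOp τ ε O C ψ := by
  have e1 : (fun p => if p ∈ C then tMat (τ' p) (ε' p) (O' p) else (1 : Matrix Bool Bool ℂ)) =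
      fun p => if p ∈ C then tMat (τ p) (ε p) (O p) else 1 :=
    qu_fam_congr C _ _ (fun p hp => by rw [hτ p hp, hε p hp, hO p hp])
  have e2 : (fun p => if p ∈ C then tMat (τ' p) (ε' p) (projOne * O' p)
      else (1 : Matrix Bool Bool ℂ)) =
      fun p => if p ∈ C then tMat (τ p) (ε p) (projOne * O p) else 1 :=
    qu_fam_congr C _ _ (fun p hp => by rw [hτ p hp, hε p hp, hO p hp])
  have e3 : (fun p => if p ∈ C then tMat (τ' p) (ε' p) (O' p * projOne)
      else (1 : Matrix Bool Bool ℂ)) =
      fun p => if p ∈ C then tMat (τ p) (ε p) (O p * projOne) else 1 :=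
    qu_fam_congr C _ _ (fun p hp => by rw [hτ p hp, hε p hp, hO p hp])
  have e4 : (fun p => if p ∈ C then tMat (τ' p) (ε' p) (projOne * O' p * projOne)
      else (1 : Matrix Bool Bool ℂ)) =
      fun p => if p ∈ C then tMat (τ p) (ε p) (projOne * O p * projOne) else 1 :=
    qu_fam_congr C _ _ (fun p hp => by rw [hτ p hp, hε p hp, hO p hp])
  unfold gOp
  rw [e1, e2, e3, e4]

/-- With no flags, no matrices, no gates and no observable the signed sum is the pairing. -/
theorem qu_sForm_trivial (φ χ : StateVec Q) :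
    sForm (fun _ => false) (fun _ _ => 1) (∅ : Finset (Finset Q)) (fun _ => 1) φ χ =
      ip φ χ := by
  unfold sForm
  simp only [czLayer_empty, oneQubitLayer_one]
  rw [← Finset.sum_mul]
  have h := b2_sum_weight (fun _ : Q => false)
  have h1 : (∑ y : Q → Bool, ((wprod (fun _ => false) y : ℝ) : ℂ)) = 1 := by
    rw [← Complex.ofReal_sum]
    unfold wprod
    rw [h]
    simp
  rw [h1, one_mul]

/-- The two-sided bound for one term of the signed sum. -/
theorem qu_term (W G N : ℝ) (h0 : 0 ≤ G) (h1 : W ≠ 0 → G ≤ N) :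
    -((|W| - W) / 2) * N ≤ W * G ∧ W * G ≤ (|W| + W) / 2 * N := by
  rcases lt_trichotomy W 0 with hW | hW | hW
  · have hG := h1 hW.ne
    rw [abs_of_neg hW]
    constructor
    · nlinarith
    · nlinarith
  · subst hW
    simp
  · have hG := h1 hW.ne'
    rw [abs_of_pos hW]
    constructor
    · nlinarith
    · nlinarith

/-- The final step: from the two one-sided bounds to the bound in modulus. -/
theorem qu_final (k : ℕ) (S N : ℝ)
    (hup : S ≤ ((2:ℝ) ^ k + (if k = 0 then 1 else 0)) / 2 * N)
    (hlo : -(((2:ℝ) ^ k - (if k = 0 then 1 else 0)) / 2) * N ≤ S) :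
    |S| ≤ 2 ^ (k - 1) * N := by
  rw [abs_le]
  rcases Nat.eq_zero_or_pos k with hk | hk
  · subst hk
    simp only [if_true, pow_zero] at hup hlo
    simp only [Nat.zero_sub, pow_zero]
    constructor
    · linarith
    · linarith
  · obtain ⟨j, rfl⟩ : ∃ j, k = j + 1 := ⟨k - 1, by omega⟩
    have hne : ¬ (j + 1 = 0) := by omega
    simp only [hne, if_false, Nat.add_sub_cancel] at hup hlo ⊢
    rw [pow_succ] at hup hlo
    constructor
    · linarith
    · linarith

/-- The bound for data that are trivial outside `C`. -/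
theorem qu_core (τ : Q → Bool) (ε : Q → Bool → Matrix Bool Bool ℂ)
    (m : Q → Matrix Bool Bool ℂ) (C : Finset Q) (hm : ∀ p, IsContr (m p))
    (hε : ∀ y : Q → Bool, wprod τ y ≠ 0 → ∀ p, IsContr (ε p (y p)))
    (hτ : ∀ p, p ∉ C → τ p = false) (hεC : ∀ p, p ∉ C → ∀ b, ε p b = 1)
    (hmC : ∀ p, p ∉ C → m p = 1) (ψ : StateVec Q) :
    |(ip ψ (gOp τ ε (fun p => (m p).conjTranspose * m p) C ψ)).re| ≤
      2 ^ ((univ.filter fun p => τ p = true).card - 1) * normSqSum ψ := by
  have hpeel := sForm_peel τ ε ∅ (fun p => (m p).conjTranspose * m p) C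
    (Finset.notMem_empty _) (by simp) ψ ψ
  have e1 : (fun p => if p ∈ C then false else τ p) = fun _ => false := by
    funext p
    by_cases h : p ∈ C
    · rw [if_pos h]
    · rw [if_neg h, hτ p h]
  have e2 : (fun p b => if p ∈ C then (1 : Matrix Bool Bool ℂ) else ε p b) = fun _ _ => 1 := by
    funext p b
    by_cases h : p ∈ C
    · rw [if_pos h]
    · rw [if_neg h, hεC p h b]
  have e3 : (fun p => if p ∈ C then (1 : Matrix Bool Bool ℂ) else (m p).conjTranspose * m p)
      = fun _ => 1 := by
    funext p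
    by_cases h : p ∈ C
    · rw [if_pos h]
    · rw [if_neg h, hmC p h, Matrix.conjTranspose_one, mul_one]
  rw [e1, e2, e3, qu_sForm_trivial] at hpeel
  have hreal : sForm τ ε (insert C ∅) (fun p => (m p).conjTranspose * m p) ψ ψ =
      ((∑ y : Q → Bool, wprod τ y * normSqSum (oneQubitLayer m
        (czLayer (insert C ∅) (oneQubitLayer (fun p => ε p (y p)) ψ))) : ℝ) : ℂ) := by
    unfold sForm
    rw [Complex.ofReal_sum]
    refine Finset.sum_congr rfl fun y _ => ?_
    rw [Complex.ofReal_mul, normSqSum_eq_expVal]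
    rfl
  rw [← hpeel, hreal, Complex.ofReal_re]
  have hterm : ∀ y : Q → Bool,
      -((|wprod τ y| - wprod τ y) / 2) * normSqSum ψ
          ≤ wprod τ y * normSqSum (oneQubitLayer m
            (czLayer (insert C ∅) (oneQubitLayer (fun p => ε p (y p)) ψ))) ∧
        wprod τ y * normSqSum (oneQubitLayer m
            (czLayer (insert C ∅) (oneQubitLayer (fun p => ε p (y p)) ψ)))
          ≤ (|wprod τ y| + wprod τ y) / 2 * normSqSum ψ := by
    intro y
    refine qu_term _ _ _ (gd_normSqSum_nonneg _) (fun hW => ?_)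
    calc normSqSum (oneQubitLayer m
            (czLayer (insert C ∅) (oneQubitLayer (fun p => ε p (y p)) ψ)))
        ≤ normSqSum (czLayer (insert C ∅) (oneQubitLayer (fun p => ε p (y p)) ψ)) :=
          normSqSum_oneQubitLayer_le m hm _
      _ = normSqSum (oneQubitLayer (fun p => ε p (y p)) ψ) := normSqSum_czLayer _ _
      _ ≤ normSqSum ψ := normSqSum_oneQubitLayer_le _ (hε y hW) ψ
  have hup : (∑ y : Q → Bool, wprod τ y * normSqSum (oneQubitLayer m
        (czLayer (insert C ∅) (oneQubitLayer (fun p => ε p (y p)) ψ))))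
      ≤ ((∑ y : Q → Bool, |wprod τ y|) + ∑ y : Q → Bool, wprod τ y) / 2 * normSqSum ψ := by
    rw [← Finset.sum_add_distrib, Finset.sum_div, Finset.sum_mul]
    exact Finset.sum_le_sum (fun y _ => (hterm y).2)
  have hlo : -(((∑ y : Q → Bool, |wprod τ y|) - ∑ y : Q → Bool, wprod τ y) / 2) * normSqSum ψ
      ≤ ∑ y : Q → Bool, wprod τ y * normSqSum (oneQubitLayer m
        (czLayer (insert C ∅) (oneQubitLayer (fun p => ε p (y p)) ψ))) := by
    rw [← Finset.sum_sub_distrib, Finset.sum_div, ← Finset.sum_neg_distrib, Finset.sum_mul]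
    exact Finset.sum_le_sum (fun y _ => (hterm y).1)
  have ha : (∑ y : Q → Bool, |wprod τ y|) = 2 ^ (univ.filter fun p => τ p = true).card :=
    b2_sum_abs_weight τ
  have hw : (∑ y : Q → Bool, wprod τ y)
      = if (univ.filter fun p => τ p = true).card = 0 then 1 else 0 := b2_sum_weight τ
  rw [ha, hw] at hup hlo
  exact qu_final _ _ _ hup hlo

/-- The quadratic form of the operator of a gate `C` is a signed sum of squared norms, so it
is at most `2^(k-1)` times the squared norm, `k` the number of flagged qubits of `C`. -/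
theorem gOp_quad (τ : Q → Bool) (ε : Q → Bool → Matrix Bool Bool ℂ)
    (O : Q → Matrix Bool Bool ℂ) (C : Finset Q) (hadm : Adm τ ε) (hO : ∀ p, IsPos (O p))
    (ψ : StateVec Q) :
    |(ip ψ (gOp τ ε O C ψ)).re| ≤
      2 ^ ((C.filter fun p => τ p = true).card - 1) * normSqSum ψ := by
  choose m hm hOm using hO
  obtain ⟨τc, hτc⟩ : ∃ τc : Q → Bool, ∀ p, τc p = if p ∈ C then τ p else false :=
    ⟨fun p => if p ∈ C then τ p else false, fun _ => rfl⟩
  obtain ⟨εc, hεc⟩ : ∃ εc : Q → Bool → Matrix Bool Bool ℂ,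
      ∀ p b, εc p b = if p ∈ C then ε p b else 1 :=
    ⟨fun p b => if p ∈ C then ε p b else 1, fun _ _ => rfl⟩
  obtain ⟨mc, hmc⟩ : ∃ mc : Q → Matrix Bool Bool ℂ, ∀ p, mc p = if p ∈ C then m p else 1 :=
    ⟨fun p => if p ∈ C then m p else 1, fun _ => rfl⟩
  have hm' : ∀ p, IsContr (mc p) := by
    intro p
    rw [hmc]
    by_cases hp : p ∈ C
    · rw [if_pos hp]
      exact hm p
    · rw [if_neg hp]
      exact isContr_one
  have hε' : ∀ y : Q → Bool, wprod τc y ≠ 0 → ∀ p, IsContr (εc p (y p)) := by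
    intro y hy p
    rw [hεc]
    by_cases hp : p ∈ C
    · rw [if_pos hp]
      by_cases ht : τ p = true
      · obtain ⟨u, hu, hεu⟩ := (hadm p).1 ht
        rw [hεu]
        exact isContr_colMat u hu (y p)
      · have ht' : τ p = false := by simpa using ht
        have hfac : wt (τc p) (y p) ≠ 0 := by
          unfold wprod at hy
          exact (Finset.prod_ne_zero_iff.mp hy) p (Finset.mem_univ p)
        rw [hτc, if_pos hp, ht'] at hfac
        have hyp : y p = false := by
          by_contra hne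
          have hyt : y p = true := by simpa using hne
          rw [hyt] at hfac
          exact hfac (by simp [wt])
        rw [hyp]
        exact (hadm p).2 ht'
    · rw [if_neg hp]
      exact isContr_one
  have hτ' : ∀ p, p ∉ C → τc p = false := fun p hp => by rw [hτc, if_neg hp]
  have hεC' : ∀ p, p ∉ C → ∀ b, εc p b = 1 := fun p hp b => by rw [hεc, if_neg hp]
  have hmC' : ∀ p, p ∉ C → mc p = 1 := fun p hp => by rw [hmc, if_neg hp]
  have hcore := qu_core τc εc mc C hm' hε' hτ' hεC' hmC' ψ
  have hg : gOp τc εc (fun p => (mc p).conjTranspose * mc p) C ψ = gOp τ ε O C ψ :=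
    qu_gOp_congr τ τc ε εc O (fun p => (mc p).conjTranspose * mc p) C
      (fun p hp => by rw [hτc, if_pos hp])
      (fun p hp => by
        funext b
        rw [hεc, if_pos hp])
      (fun p hp => by
        show (mc p).conjTranspose * mc p = O p
        rw [hmc, if_pos hp, hOm p]) ψ
  have hk : (univ.filter fun p => τc p = true) = C.filter fun p => τ p = true := by
    ext p
    simp only [Finset.mem_filter, Finset.mem_univ, true_and, hτc]
    by_cases h : p ∈ C
    · simp [h]
    · simp [h]
  rw [hg, hk] at hcore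
  exact hcore

end Vale.Agent.Lib.P368
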