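import Vale.Agent.Lib.P368.Adv.KL

/-!
# P368, ancilla preprocessing: the signed sum through two layers of gates
-/

namespace Vale.Agent.Lib.P368

open Finset

variable {Q : Type} [Fintype Q] [DecidableEq Q]

/-- The signed sum of the squared norms of one contracted branch is a value of `sForm`, hence
at most `(12/7)^n` for a vector of norm at most one. -/
theorem tw_bound {n : ℕ} (inp : Fin n ↪ Q) (first w : Q → Matrix Bool Bool ℂ)
    (L1 : Finset (Finset Q)) (Φ : StateVec Q)
    (hfirst : ∀ p, first p ∈ Matrix.unitaryGroup Bool ℂ)
    (hw : ∀ p, w p ∈ Matrix.unitaryGroup Bool ℂ)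
    (hL1 : (L1 : Set (Finset Q)).PairwiseDisjoint id) (hΦ : normSqSum Φ ≤ 1)
    (m : Q → Matrix Bool Bool ℂ) (hm : ∀ p, IsContr (m p)) :
    |∑ y : Q → Bool, (∏ p, wt (inTau inp p) (y p)) *
      normSqSum (oneQubitLayer m (czLayer L1 (oneQubitLayer
        (fun p => first p * (if inTau inp p = true then colMat (w p) (y p) else 1)) Φ)))| ≤
      (12 / 7 : ℝ) ^ n := by
  have e : ((∑ y : Q → Bool, (∏ p, wt (inTau inp p) (y p)) *
      normSqSum (oneQubitLayer m (czLayer L1 (oneQubitLayer
        (fun p => first p * (if inTau inp p = true then colMat (w p) (y p) else 1)) Φ))) : ℝ) : ℂ)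
      = sForm (inTau inp)
          (fun p c => first p * (if inTau inp p = true then colMat (w p) c else 1)) L1
          (fun p => (m p).conjTranspose * m p) Φ Φ := by
    unfold sForm
    rw [Complex.ofReal_sum]
    refine Finset.sum_congr rfl fun y _ => ?_
    rw [Complex.ofReal_mul, normSqSum_eq_expVal]
    rfl
  have hadm : Adm (inTau inp)
      (fun p c => first p * (if inTau inp p = true then colMat (w p) c else 1)) := by
    intro p
    constructor
    · intro hp
      refine ⟨first p * w p, mul_mem (hfirst p) (hw p), fun c => ?_⟩
      show first p * (if inTau inp p = true then colMat (w p) c else 1) =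
        colMat (first p * w p) c
      rw [if_pos hp, colMat_mul]
    · intro hp
      show IsContr (first p * (if inTau inp p = true then colMat (w p) false else 1))
      rw [hp, if_neg Bool.false_ne_true, mul_one]
      exact isContr_of_unitary _ (hfirst p)
  have hpos : ∀ p, IsPos ((m p).conjTranspose * m p) := fun p => ⟨m p, hm p, rfl⟩
  have hb := sForm_bound L1 hL1 (inTau inp)
    (fun p c => first p * (if inTau inp p = true then colMat (w p) c else 1))
    (fun p => (m p).conjTranspose * m p) hadm hpos Φ Φ
  rw [← e, Complex.norm_real, Real.norm_eq_abs, card_inTau,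
    Real.mul_self_sqrt (gd_normSqSum_nonneg Φ)] at hb
  calc |∑ y : Q → Bool, (∏ p, wt (inTau inp p) (y p)) *
      normSqSum (oneQubitLayer m (czLayer L1 (oneQubitLayer
        (fun p => first p * (if inTau inp p = true then colMat (w p) (y p) else 1)) Φ)))|
      ≤ (12 / 7 : ℝ) ^ n * normSqSum Φ := hb
    _ ≤ (12 / 7 : ℝ) ^ n * 1 := mul_le_mul_of_nonneg_left hΦ (by positivity)
    _ = (12 / 7 : ℝ) ^ n := mul_one _

/-- The same bound with the sum over the inputs `x` located on the input qubits. -/
theorem tw_bound_x {n : ℕ} (inp : Fin n ↪ Q) (first w : Q → Matrix Bool Bool ℂ)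
    (L1 : Finset (Finset Q)) (Φ : StateVec Q)
    (hfirst : ∀ p, first p ∈ Matrix.unitaryGroup Bool ℂ)
    (hw : ∀ p, w p ∈ Matrix.unitaryGroup Bool ℂ)
    (hL1 : (L1 : Set (Finset Q)).PairwiseDisjoint id) (hΦ : normSqSum Φ ≤ 1)
    (m : Q → Matrix Bool Bool ℂ) (hm : ∀ p, IsContr (m p)) :
    |∑ x : Fin n → Bool, sgn x *
      normSqSum (oneQubitLayer m (czLayer L1 (oneQubitLayer
        (fun p => first p * (if inTau inp p = true then
          colMat (w p) (Function.extend inp x (fun _ => false) p) else 1)) Φ)))| ≤
      (12 / 7 : ℝ) ^ n := by
  have h := sum_sgn_extend inp (fun y : Q → Bool =>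
    normSqSum (oneQubitLayer m (czLayer L1 (oneQubitLayer
      (fun p => first p * (if inTau inp p = true then colMat (w p) (y p) else 1)) Φ))))
  have hb := tw_bound inp first w L1 Φ hfirst hw hL1 hΦ m hm
  rw [← h] at hb
  exact hb

/-- Two layers of multi-controlled `Z` gates with one-qubit unitaries around them, applied to
the states `Λ_x Φ`: the input qubit `p` carries the column `x p` of the unitary `w p`, and `Φ`
is any vector of norm at most one.  The signed sum over the inputs of the probability of the
outcome `b` on qubit `q` is at most `3 (12/7)^n`. -/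
theorem advice_signed_sum_two {n : ℕ} (inp : Fin n ↪ Q) (first v last w : Q → Matrix Bool Bool ℂ)
    (L1 L2 : Finset (Finset Q)) (Φ : StateVec Q)
    (hfirst : ∀ p, first p ∈ Matrix.unitaryGroup Bool ℂ)
    (hv : ∀ p, v p ∈ Matrix.unitaryGroup Bool ℂ)
    (hlast : ∀ p, last p ∈ Matrix.unitaryGroup Bool ℂ)
    (hw : ∀ p, w p ∈ Matrix.unitaryGroup Bool ℂ)
    (hL1 : (L1 : Set (Finset Q)).PairwiseDisjoint id)
    (hL2 : (L2 : Set (Finset Q)).PairwiseDisjoint id) (hΦ : normSqSum Φ ≤ 1) (q : Q) (b : Bool) :
    |∑ x : Fin n → Bool, sgn x * measProb (oneQubitLayer last (oneQubitLayer (fun _ => 1)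
      (czLayer L2 (oneQubitLayer v (czLayer L1 (oneQubitLayer first
        (oneQubitLayer (fun p => if inTau inp p = true then
          colMat (w p) (Function.extend inp x (fun _ => false) p) else 1) Φ))))))) q b| ≤
      3 * (12 / 7 : ℝ) ^ n := by
  obtain ⟨B', r', hr', hmeas⟩ := measProb_depth_two L2 hL2 (last q) q b
  have hrow : Complex.normSq (last q b false) + Complex.normSq (last q b true) = 1 :=
    unitary_row _ (hlast q) b
  have hc0 : ∀ p, IsContr ((if p = q then rowMat b (last q b) else 1) * v p) := by
    intro p
    refine isContr_mul _ _ ?_ (isContr_of_unitary _ (hv p))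
    split_ifs
    · exact isContr_rowMat b _ (le_of_eq hrow)
    · exact isContr_one
  have hc1 : ∀ p, IsContr ((if p = q then rowMat b (last q b) else
      if p ∈ B' then projOne else 1) * v p) := by
    intro p
    refine isContr_mul _ _ ?_ (isContr_of_unitary _ (hv p))
    split_ifs
    · exact isContr_rowMat b _ (le_of_eq hrow)
    · exact isContr_projOne
    · exact isContr_one
  have hc2 : ∀ p, IsContr ((if p = q then rowMat b r' else
      if p ∈ B' then projOne else 1) * v p) := by
    intro p
    refine isContr_mul _ _ ?_ (isContr_of_unitary _ (hv p))
    split_ifs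
    · refine isContr_rowMat b _ (le_of_eq ?_)
      rw [hr' false, hr' true]
      exact hrow
    · exact isContr_projOne
    · exact isContr_one
  have hterm : ∀ x : Fin n → Bool, measProb (oneQubitLayer last (oneQubitLayer (fun _ => 1)
      (czLayer L2 (oneQubitLayer v (czLayer L1 (oneQubitLayer first
        (oneQubitLayer (fun p => if inTau inp p = true then
          colMat (w p) (Function.extend inp x (fun _ => false) p) else 1) Φ))))))) q b =
      normSqSum (oneQubitLayer (fun p => (if p = q then rowMat b (last q b) else 1) * v p)
        (czLayer L1 (oneQubitLayer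
          (fun p => first p * (if inTau inp p = true then
            colMat (w p) (Function.extend inp x (fun _ => false) p) else 1)) Φ)))
      - normSqSum (oneQubitLayer (fun p => (if p = q then rowMat b (last q b) else
          if p ∈ B' then projOne else 1) * v p)
        (czLayer L1 (oneQubitLayer
          (fun p => first p * (if inTau inp p = true then
            colMat (w p) (Function.extend inp x (fun _ => false) p) else 1)) Φ)))
      + normSqSum (oneQubitLayer (fun p => (if p = q then rowMat b r' else
          if p ∈ B' then projOne else 1) * v p)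
        (czLayer L1 (oneQubitLayer
          (fun p => first p * (if inTau inp p = true then
            colMat (w p) (Function.extend inp x (fun _ => false) p) else 1)) Φ))) := by
    intro x
    rw [oneQubitLayer_one, oneQubitLayer_comp first]
    have h1 := measProb_oneQubitLayer_local last hlast
      (czLayer L2 (oneQubitLayer v (czLayer L1 (oneQubitLayer
        (fun p => first p * (if inTau inp p = true then
          colMat (w p) (Function.extend inp x (fun _ => false) p) else 1)) Φ)))) q b
    rw [h1]
    have h2 := hmeas (oneQubitLayer v (czLayer L1 (oneQubitLayer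
      (fun p => first p * (if inTau inp p = true then
        colMat (w p) (Function.extend inp x (fun _ => false) p) else 1)) Φ)))
    rw [h2, oneQubitLayer_comp, oneQubitLayer_comp, oneQubitLayer_comp]
  have b0 := tw_bound_x inp first w L1 Φ hfirst hw hL1 hΦ _ hc0
  have b1 := tw_bound_x inp first w L1 Φ hfirst hw hL1 hΦ _ hc1
  have b2 := tw_bound_x inp first w L1 Φ hfirst hw hL1 hΦ _ hc2
  have hsum : (∑ x : Fin n → Bool, sgn x * measProb (oneQubitLayer last
      (oneQubitLayer (fun _ => 1)
      (czLayer L2 (oneQubitLayer v (czLayer L1 (oneQubitLayer first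
        (oneQubitLayer (fun p => if inTau inp p = true then
          colMat (w p) (Function.extend inp x (fun _ => false) p) else 1) Φ))))))) q b) =
      (∑ x : Fin n → Bool, sgn x *
        normSqSum (oneQubitLayer (fun p => (if p = q then rowMat b (last q b) else 1) * v p)
          (czLayer L1 (oneQubitLayer
            (fun p => first p * (if inTau inp p = true then
              colMat (w p) (Function.extend inp x (fun _ => false) p) else 1)) Φ))))
      - (∑ x : Fin n → Bool, sgn x *
        normSqSum (oneQubitLayer (fun p => (if p = q then rowMat b (last q b) else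
            if p ∈ B' then projOne else 1) * v p)
          (czLayer L1 (oneQubitLayer
            (fun p => first p * (if inTau inp p = true then
              colMat (w p) (Function.extend inp x (fun _ => false) p) else 1)) Φ))))
      + (∑ x : Fin n → Bool, sgn x *
        normSqSum (oneQubitLayer (fun p => (if p = q then rowMat b r' else
            if p ∈ B' then projOne else 1) * v p)
          (czLayer L1 (oneQubitLayer
            (fun p => first p * (if inTau inp p = true then
              colMat (w p) (Function.extend inp x (fun _ => false) p) else 1)) Φ)))) := by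
    rw [← Finset.sum_sub_distrib, ← Finset.sum_add_distrib]
    refine Finset.sum_congr rfl fun x _ => ?_
    rw [hterm]
    ring
  rw [hsum]
  have t1 := abs_add_le
    ((∑ x : Fin n → Bool, sgn x *
        normSqSum (oneQubitLayer (fun p => (if p = q then rowMat b (last q b) else 1) * v p)
          (czLayer L1 (oneQubitLayer
            (fun p => first p * (if inTau inp p = true then
              colMat (w p) (Function.extend inp x (fun _ => false) p) else 1)) Φ))))
      - (∑ x : Fin n → Bool, sgn x *
        normSqSum (oneQubitLayer (fun p => (if p = q then rowMat b (last q b) else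
            if p ∈ B' then projOne else 1) * v p)
          (czLayer L1 (oneQubitLayer
            (fun p => first p * (if inTau inp p = true then
              colMat (w p) (Function.extend inp x (fun _ => false) p) else 1)) Φ)))))
    (∑ x : Fin n → Bool, sgn x *
        normSqSum (oneQubitLayer (fun p => (if p = q then rowMat b r' else
            if p ∈ B' then projOne else 1) * v p)
          (czLayer L1 (oneQubitLayer
            (fun p => first p * (if inTau inp p = true then
              colMat (w p) (Function.extend inp x (fun _ => false) p) else 1)) Φ))))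
  have t2 := abs_sub
    (∑ x : Fin n → Bool, sgn x *
        normSqSum (oneQubitLayer (fun p => (if p = q then rowMat b (last q b) else 1) * v p)
          (czLayer L1 (oneQubitLayer
            (fun p => first p * (if inTau inp p = true then
              colMat (w p) (Function.extend inp x (fun _ => false) p) else 1)) Φ))))
    (∑ x : Fin n → Bool, sgn x *
        normSqSum (oneQubitLayer (fun p => (if p = q then rowMat b (last q b) else
            if p ∈ B' then projOne else 1) * v p)
          (czLayer L1 (oneQubitLayer
            (fun p => first p * (if inTau inp p = true then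
              colMat (w p) (Function.extend inp x (fun _ => false) p) else 1)) Φ))))
  linarith

end Vale.Agent.Lib.P368
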